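import Vale.Agent.P257.H712.Trans
import Vale.Agent.P257.H762.TL
import Vale.Agent.P257.H314.Act

/-!
# P257, package TOP-2 (helper712): survival of `v_4`, with the Toda lemma (helper762)

The remaining hypotheses: the algebra (`V4Van`, `AlgOnto`), the relation `α₁ β₁^p = 0` modulo `p`
(`hII`) and the `k = 1` step (`hL`, Leibniz rule).
-/

open CategoryTheory MonoidalCategory Limits Pretriangulated MonObj

set_option linter.unusedSectionVars false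

universe v u

namespace Vale.Agent.P257.H712

open Vale.Agent.P251 Vale.Agent.P251.T Vale.Agent.P251.F Vale.Agent.P251.I
  Vale.Agent.P251.M Vale.Agent.P257.H314
open Vale.Agent.P251.S hiding IC
open Vale.Agent.P251.B (sphE)

variable {T : Type u} [Category.{v} T] [Preadditive T] [HasZeroObject T]
    [HasShift T ℤ] [∀ n : ℤ, (shiftFunctor T n).Additive] [Pretriangulated T]
    [MonoidalCategory T] [SymmetricCategory T] [TensorTriangulated T] [HasCoproducts.{0} T]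
    [MonoidalClosed T] [IsTriangulated T] [HasProducts.{0} T] [StableCat T]
    {D : MUData T} (U : UnitCof D.R) {p : ℕ} [Fact p.Prime] {V : T} {i : 𝟙_ T ⟶ V}
    {C₀ : T} {iC₀ : 𝟙_ T ⟶ C₀}

lemma AI_tpow {A B : T} (b : A ⟶ B) (K : ℕ) :
    H762.AI (tpow b K) (H762.tSm (𝟙 (𝟙_ T)) b K) := by
  induction K with
  | zero => exact H762.AI.refl _
  | succ K ih => exact ih.tensor (H762.AI.refl b)

/-- **Survival of `v_4`**: the remaining inputs are algebra, the relation `α₁ β₁^p ∈ (p)` and the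
`k = 1` step. -/
theorem exists_det_v4_toda (H : IsST D p iC₀ 4 i) (m : UProd V i)
    {δ : C₀ ⟶ (𝟙_ T)⟦(1 : ℤ)⟧} (hC : Triangle.mk ((p : ℤ) • 𝟙 (𝟙_ T)) iC₀ δ ∈ distTriang T)
    (hp : 5 ≤ p) (hV : V4Van p) {t : Cob Laz 1} (ht : IsT1 p t)
    (htw : Cob.IsWt ((p : ℤ) - 1) t) (hb : Cob.IsWt ((p : ℤ) * ((p : ℤ) - 1)) (bcls p t))
    (a : (𝟙_ T)⟦2 * ((p : ℤ) - 1)⟧ ⟶ U.cobar.B 1 (𝟙_ T))
    (ha : ((sphE T ((p : ℤ) - 1)).inv ≫ D.phi U 1 ((p : ℤ) - 1) ⟨t, htw⟩) ≫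
      U.cobar.q 1 (𝟙_ T) = a ≫ unitMap D.R _)
    (x : (𝟙_ T)⟦2 * ((p : ℤ) * ((p : ℤ) - 1))⟧ ⟶ U.cobar.B 2 (𝟙_ T))
    (hx : ((sphE T ((p : ℤ) * ((p : ℤ) - 1))).inv ≫
        D.phi U 2 ((p : ℤ) * ((p : ℤ) - 1)) ⟨bcls p t, hb⟩) ≫ U.cobar.q 2 (𝟙_ T) =
      x ≫ unitMap D.R _)
    (hII : ∃ g, (p : ℤ) • g =
      H762.tSm (𝟙 (𝟙_ T)) (x ≫ U.bd 1 (𝟙_ T) ≫ (U.bd 0 (𝟙_ T))⟦(1 : ℤ)⟧') p ⊗ₘ
        (a ≫ U.bd 0 (𝟙_ T)))
    (hO : AlgOnto p 4 (bcls p t) ((p : ℤ) * ((p : ℤ) - 1)) 5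
      (((p : ℤ) - 1) * (2 * p ^ 2 + 4 * p + 1)) (p ^ 2 - p - 3))
    (hL : ∀ y : (CV U V).D (2 * (p - 1) + 1) (2 * ((p : ℤ) ^ 4 - 1) - 1),
      (CV U V).proj _ (Nat.le_add_left 1 _) y = (CV U V).k 0 _ _ (by ring) (v4E U p i) →
      Null (CV U V) 1 ((CV U V).j _ _ y)) :
    ∃ x : (stdEven T).S ((p ^ 4 : ℤ) - 1) ⟶ V, Det D i x (vw p 4 0) := by
  refine exists_det_v4' U H hp hV hb x hx hO a (fun n ζ hζ => ?_) hL
  refine ((AI_tpow _ _).tensor (H762.AI.refl ζ)).eq_zero ?_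
  exact H762.toda_beta D U (by omega) ht (by rw [Nat.cast_sub (by omega), Nat.cast_one])
    (by rw [Nat.cast_mul, Nat.cast_sub (by omega), Nat.cast_one]) htw hb a ha x hx hII
    (H.zsmul_id m hC) ζ hζ _ le_rfl

end Vale.Agent.P257.H712
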