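import Vale.Agent.P257.H712.TowMul
import Vale.Agent.P251.S.CupPow
import Vale.Agent.P251.B.Final
import Vale.Agent.P257.H314.E2

/-!
# P257, package TOP-2 (helper712): from `Cob Laz / I_h` to the couple of `V`

`V` is an object with `i : 𝟙 ⟶ V` and cyclic `MU`-homology `Laz / I_h` (`H314.Cyc`).

* `AlgOnto`: multiplication by `b^(K+1)` is onto on the cohomology of `Cob Laz / I_h`;
* `phiV`: the map `(Cob Laz s)_w → Hom (S^{2w}, Q (s+1) 𝟙 ⊗ V)`;
* `onto_of_alg`: every class of the `E₂`-term is `x^(K+1)` times a class.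
-/

open CategoryTheory MonoidalCategory Limits Pretriangulated MonObj

set_option linter.unusedSectionVars false

universe v u

namespace Vale.Agent.P257.H712

open Vale.Agent.P251 Vale.Agent.P251.T Vale.Agent.P251.F Vale.Agent.P251.I
  Vale.Agent.P251.M Vale.Agent.P257.H314
open Vale.Agent.P251.S hiding IC
open Vale.Agent.P251.B (sphE)

/-! ### Algebra -/

section Algebra

/-- Iterated cup products on the right. -/
noncomputable def cupN {N : Type} [CommRing N] [LawRing N] {s : ℕ} (c : Cob N s) (b : Cob N 2) :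
    ∀ K : ℕ, Cob N (s + 2 * K)
  | 0 => c
  | K + 1 => Cob.cup (a := s + 2 * K) (b := 2) (cupN c b K) b

lemma cupN_succ {N : Type} [CommRing N] [LawRing N] {s : ℕ} (c : Cob N s) (b : Cob N 2) (K : ℕ) :
    cupN c b (K + 1) = Cob.cup (a := s + 2 * K) (b := 2) (cupN c b K) b := rfl

lemma cupN_isWt {N : Type} [CommRing N] [LawRing N] {s : ℕ} {c : Cob N s} {b : Cob N 2}
    {w v : ℤ} (hc : Cob.IsWt w c) (hb : Cob.IsWt v b) (K : ℕ) :
    Cob.IsWt (Couple.Mul2.deg v w K) (cupN c b K) := by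
  induction K with
  | zero => exact hc
  | succ K ih => exact Cob.IsWt.cup (a := s + 2 * K) (b := 2) ih hb

lemma mapRing_cupN {N M : Type} [CommRing N] [LawRing N] [CommRing M] [LawRing M]
    {φ : N →+* M} (hφ : IsLawHom φ) {s : ℕ} (c : Cob N s) (b : Cob N 2) (K : ℕ) :
    Cob.mapRing φ (s + 2 * K) (cupN c b K) =
      cupN (Cob.mapRing φ s c) (Cob.mapRing φ 2 b) K := by
  induction K with
  | zero => rfl
  | succ K ih =>
    rw [cupN_succ, cupN_succ, ← ih]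
    exact Cob.mapRing_cup (a := s + 2 * K) (b := 2) hφ _ _

/-- Multiplication by `b^(K+1)` (on the right) from degree `s` and weight `w` is onto on the
cohomology of `Cob Laz / I_h`; `v` is the weight of `b`. -/
def AlgOnto (p h : ℕ) (b : Cob Laz 2) (v : ℤ) (s : ℕ) (w : ℤ) (K : ℕ) : Prop :=
  ∀ c : Cob Laz (s + 2 * (K + 1)), Cob.IsWt (Couple.Mul2.deg v w (K + 1)) c →
    Cob.d (s + 2 * (K + 1)) c ∈ IC p h (s + 2 * (K + 1) + 1) →
    ∃ (c₀ : Cob Laz s) (e : Cob Laz (s + 2 * K + 1)), Cob.IsWt w c₀ ∧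
      Cob.IsWt (Couple.Mul2.deg v w (K + 1)) e ∧ Cob.d s c₀ ∈ IC p h (s + 1) ∧
      c - cupN c₀ b (K + 1) - Cob.d (s + 2 * K + 1) e ∈ IC p h (s + 2 * (K + 1))

end Algebra

variable {T : Type u} [Category.{v} T] [Preadditive T] [HasZeroObject T]
    [HasShift T ℤ] [∀ n : ℤ, (shiftFunctor T n).Additive] [Pretriangulated T]
    [MonoidalCategory T] [SymmetricCategory T] [TensorTriangulated T] [HasCoproducts.{0} T]

/-- The map `(Cob Laz s)_w → Hom (S^{2w}, Q (s+1) 𝟙 ⊗ V)`. -/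
noncomputable def phiV (D : MUData T) (U : UnitCof D.R) {V : T} (i : 𝟙_ T ⟶ V) (s : ℕ) (w : ℤ) :
    Cob.wt Laz s w →+
      ((stdEven T).S w ⟶ (tensorRight V).obj (U.cobar.Q (s + 1) (𝟙_ T))) :=
  AddMonoidHom.mk' (fun z => D.phi U s w z ≫ (redC i).app (U.cobar.Q (s + 1) (𝟙_ T)))
    fun z z' => by rw [map_add, Preadditive.add_comp]

lemma phiV_apply (D : MUData T) (U : UnitCof D.R) {V : T} (i : 𝟙_ T ⟶ V) (s : ℕ) (w : ℤ)
    (z : Cob.wt Laz s w) :
    phiV D U i s w z = D.phi U s w z ≫ (redC i).app (U.cobar.Q (s + 1) (𝟙_ T)) := rfl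

lemma phiV_d (D : MUData T) (U : UnitCof D.R) {V : T} (i : 𝟙_ T ⟶ V) (s : ℕ) (w : ℤ)
    (z : Cob.wt Laz s w) :
    phiV D U i (s + 1) w (Cob.dwt Laz s w z) =
      phiV D U i s w z ≫ (tensorRight V).map (U.cobar.d (s + 1) (𝟙_ T)) := by
  have h : U.cobar.d (s + 1) (𝟙_ T) ≫ (redC i).app (U.cobar.Q (s + 1 + 1) (𝟙_ T)) =
      (redC i).app (U.cobar.Q (s + 1) (𝟙_ T)) ≫
        (tensorRight V).map (U.cobar.d (s + 1) (𝟙_ T)) := (redC i).naturality _
  rw [phiV_apply, phiV_apply, D.phi_d U s w z, Category.assoc, Category.assoc, h]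

namespace Cyc

variable {D : MUData T} {U : UnitCof D.R} {p h : ℕ} {V : T} {i : 𝟙_ T ⟶ V} (H : Cyc D p h i)

include H

lemma phiV_ker (s : ℕ) (w : ℤ) (z : Cob.wt Laz s w) :
    phiV D U i s w z = 0 ↔ z.1 ∈ IC p h s := H.phi_ker U s w z

/-- The class of a cochain only depends on its image in `Cob Laz s / I_h`. -/
lemma phiV_eq {s : ℕ} {w : ℤ} {z z' : Cob.wt Laz s w} (hz : z.1 - z'.1 ∈ IC p h s) :
    phiV D U i s w z = phiV D U i s w z' := by
  rw [← sub_eq_zero, ← map_sub, phiV_ker H]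
  exact hz

/-- Cocycles. -/
lemma exists_cocycle {s : ℕ} {w : ℤ} {t : ℤ} (α : (stdEven T).S w ≅ (𝟙_ T)⟦t⟧)
    (c : (𝟙_ T)⟦t⟧ ⟶ (tensorRight V).obj (U.cobar.Q (s + 1) (𝟙_ T)))
    (hc : c ≫ (tensorRight V).map (U.cobar.d (s + 1) (𝟙_ T)) = 0) :
    ∃ z : Cob.wt Laz s w, c = α.inv ≫ phiV D U i s w z ∧
      Cob.d s z.1 ∈ IC p h (s + 1) := by
  obtain ⟨z, hz⟩ := H.phi_surj U s w (α.hom ≫ c)
  have hz' : c = α.inv ≫ phiV D U i s w z := by
    rw [phiV_apply]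
    refine Eq.trans ?_ (congrArg (α.inv ≫ ·) hz)
    exact (Iso.inv_hom_id_assoc α c).symm
  refine ⟨z, hz', ?_⟩
  refine (phiV_ker H (U := U) (s + 1) w (Cob.dwt Laz s w z)).1 ?_
  rw [phiV_d]
  have h2 := congrArg (α.hom ≫ ·) hc
  rw [hz'] at h2
  simpa using h2

end Cyc

end Vale.Agent.P257.H712
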