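import Vale.Agent.P257.H712.TowMul

/-!
# P257, package TOP-2 (helper712): multiplication by a filtration `1` class

`y : 𝟙⟦k⟧ ⟶ J ⊗ 𝟙`, `k` even: the multiplication `D^s_n → D^{s+1}_{n+k-1}` on the couple of the
image under `F` of the tower of `𝟙` (`M₁`), and the operators `α·`, `β·` on `D^0`
(`i_M₁_eq_zero_iff`, `mulB_eq`).
-/

open CategoryTheory MonoidalCategory Limits Pretriangulated

set_option linter.unusedSectionVars false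

universe v u

namespace Vale.Agent.P257.H712

open Vale.Agent.P251.S Vale.Agent.P251.T

section Tower

variable {T : Type u} [Category.{v} T] [Preadditive T] [HasZeroObject T] [HasShift T ℤ]
  [∀ n : ℤ, (shiftFunctor T n).Additive] [Pretriangulated T] (X : Tow T) (P : T)

/-- Multiplication on `D`. -/
noncomputable def mu1Map (k a : ℤ) (hk : k = a + 1) (ξ : ∀ s, (X.J s)⟦k⟧ ⟶ X.J (s + 1))
    (s : ℕ) (n : ℤ) :
    (P⟦n + (s : ℤ)⟧ ⟶ X.J s) →+ (P⟦n + a + ((s + 1 : ℕ) : ℤ)⟧ ⟶ X.J (s + 1)) :=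
  AddMonoidHom.mk' (fun y => sh (P := P) (n + (s : ℤ)) k (n + a + ((s + 1 : ℕ) : ℤ))
    (by rw [hk]; push_cast; ring) y ≫ ξ s)
    (by intro x y; rw [map_add, Preadditive.add_comp])

lemma iMap_mu1Map (k a : ℤ) (hk : k = a + 1) (ξ : ∀ s, (X.J s)⟦k⟧ ⟶ X.J (s + 1))
    (hξ : ∀ s, ξ (s + 1) ≫ X.c (s + 1) =
      (X.c s)⟦k⟧' ≫ (shiftFunctorComm T (1 : ℤ) k).hom.app (X.J s) ≫ (ξ s)⟦(1 : ℤ)⟧')
    (s : ℕ) (n : ℤ) (y : P⟦n + ((s + 1 : ℕ) : ℤ)⟧ ⟶ X.J (s + 1)) :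
    X.iMap P (s + 1) (n + a) (mu1Map X P k a hk ξ (s + 1) n y) =
      mu1Map X P k a hk ξ s n (X.iMap P s n y) := by
  change (sh _ _ _ _).symm ((sh (P := P) _ k _ _ y ≫ ξ (s + 1)) ≫ X.c (s + 1)) =
    sh (P := P) _ k _ _ ((sh _ _ _ _).symm (y ≫ X.c s)) ≫ ξ s
  rw [AddEquiv.symm_apply_eq, sh_comp, Category.assoc, hξ]
  have h1 : n + (s : ℤ) + 1 = n + ((s + 1 : ℕ) : ℤ) := by push_cast; ring
  have h2 : n + ((s + 1 : ℕ) : ℤ) + k = n + a + ((s + 1 + 1 : ℕ) : ℤ) := by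
    rw [hk]; push_cast; ring
  have h3 : n + (s : ℤ) + k = n + a + ((s + 1 : ℕ) : ℤ) := by rw [hk]; push_cast; ring
  have h4 : n + a + ((s + 1 : ℕ) : ℤ) + 1 = n + a + ((s + 1 + 1 : ℕ) : ℤ) := by
    push_cast; ring
  have key := sh_sh_comm (P := P) (n + (s : ℤ)) 1 k _ _ _ h1 h2 h3 h4
    ((sh (n + (s : ℤ)) 1 _ h1).symm (y ≫ X.c s))
  rw [AddEquiv.apply_symm_apply, sh_comp, Category.assoc] at key
  rw [← key]
  simp only [Category.assoc]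

/-- Multiplication by an element of filtration `1`. -/
noncomputable def mul1 (k a : ℤ) (hk : k = a + 1) (ξ : ∀ s, (X.J s)⟦k⟧ ⟶ X.J (s + 1))
    (hξ : ∀ s, ξ (s + 1) ≫ X.c (s + 1) =
      (X.c s)⟦k⟧' ≫ (shiftFunctorComm T (1 : ℤ) k).hom.app (X.J s) ≫ (ξ s)⟦(1 : ℤ)⟧') :
    Mul1 (X.couple P) a where
  μ s n := mu1Map X P k a hk ξ s n
  i_μ s n y := iMap_mu1Map X P k a hk ξ hξ s n y

/-- The multiplication maps on the image of a tower. -/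
noncomputable def mapXi1 (F : T ⥤ T) [F.CommShift ℤ] [F.IsTriangulated] {k : ℤ}
    (ξ : ∀ s, (X.J s)⟦k⟧ ⟶ X.J (s + 1)) (s : ℕ) :
    ((X.map F).J s)⟦k⟧ ⟶ (X.map F).J (s + 1) :=
  (F.commShiftIso k).inv.app (X.J s) ≫ F.map (ξ s)

lemma mapXi1_comm (F : T ⥤ T) [F.CommShift ℤ] [F.IsTriangulated] {k : ℤ}
    (ξ : ∀ s, (X.J s)⟦k⟧ ⟶ X.J (s + 1))
    (hξ : ∀ s, ξ (s + 1) ≫ X.c (s + 1) =
      (X.c s)⟦k⟧' ≫ (shiftFunctorComm T (1 : ℤ) k).hom.app (X.J s) ≫ (ξ s)⟦(1 : ℤ)⟧') (s : ℕ) :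
    mapXi1 X F ξ (s + 1) ≫ (X.map F).c (s + 1) =
      ((X.map F).c s)⟦k⟧' ≫ (shiftFunctorComm T (1 : ℤ) k).hom.app ((X.map F).J s) ≫
        (mapXi1 X F ξ s)⟦(1 : ℤ)⟧' := by
  change ((F.commShiftIso k).inv.app (X.J (s + 1)) ≫ F.map (ξ (s + 1))) ≫
    F.map (X.c (s + 1)) ≫ (F.commShiftIso (1 : ℤ)).hom.app (X.J (s + 1)) =
    (F.map (X.c s) ≫ (F.commShiftIso (1 : ℤ)).hom.app (X.J s))⟦k⟧' ≫
    (shiftFunctorComm T (1 : ℤ) k).hom.app (F.obj (X.J s)) ≫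
    ((F.commShiftIso k).inv.app (X.J s) ≫ F.map (ξ s))⟦(1 : ℤ)⟧'
  rw [Category.assoc, ← F.map_comp_assoc, hξ]
  simp only [Functor.map_comp, Category.assoc]
  rw [F.map_shiftFunctorComm_hom_app]
  simp only [Category.assoc]
  rw [F.commShiftIso_hom_naturality_assoc (X.c s) k, Iso.inv_hom_id_app_assoc,
    F.commShiftIso_hom_naturality (ξ s) 1, Iso.inv_hom_id_app_assoc]

end Tower

section Sh

variable {T : Type u} [Category.{v} T] [Preadditive T] [HasShift T ℤ]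
  [∀ n : ℤ, (shiftFunctor T n).Additive]

lemma sh_eq_zero_iff {P Y : T} (t k t' : ℤ) (h : t + k = t') (f : P⟦t⟧ ⟶ Y) :
    sh t k t' h f = 0 ↔ f = 0 :=
  ⟨fun h0 => (sh t k t' h).injective (h0.trans (map_zero _).symm), fun h0 => by
    rw [h0, map_zero]⟩

end Sh

section Cobar

variable {T : Type u} [Category.{v} T] [Preadditive T] [HasZeroObject T] [HasShift T ℤ]
  [∀ n : ℤ, (shiftFunctor T n).Additive] [Pretriangulated T] [MonoidalCategory T]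
  [SymmetricCategory T] [TensorTriangulated T] {R : T} [MonObj R] (U : UnitCof R) (P : T)

/-- Multiplication by `x : Y⟦k⟧ ⟶ B 1 Z` on the tower. -/
noncomputable def ξ1 (k : ℤ) {Y Z : T} (x : Y⟦k⟧ ⟶ U.cobar.B 1 Z) (s : ℕ) :
    (U.cobar.B s Y)⟦k⟧ ⟶ U.cobar.B (s + 1) Z :=
  U.κB k s Y ≫ U.cobar.Bm s x

/-- Multiplication by an element of filtration one commutes with the connecting maps. -/
lemma ξ1_comm {k : ℤ} (n : ℕ) (hn : k = 2 * (n : ℤ)) {Y Z : T} (x : Y⟦k⟧ ⟶ U.cobar.B 1 Z)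
    (s : ℕ) :
    ξ1 U k x (s + 1) ≫ U.bd (s + 1) Z =
      (U.bd s Y)⟦k⟧' ≫ (shiftFunctorComm T (1 : ℤ) k).hom.app (U.cobar.B s Y) ≫
          (ξ1 U k x s)⟦(1 : ℤ)⟧' := by
  subst hn
  have h1 : U.cobar.Bm (s + 1) x ≫ U.bd (s + 1) Z = U.bd s (Y⟦2 * (n : ℤ)⟧) ≫
    (U.cobar.Bm s x)⟦(1 : ℤ)⟧' := U.bd_naturality s x
  rw [ξ1, ξ1, Category.assoc, h1, reassoc_of% U.κB_bd n s Y, Functor.map_comp]

variable (F : T ⥤ T) [F.CommShift ℤ] [F.IsTriangulated]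

/-- The multiplication by a class of filtration `1` on the couple of `F` of the tower of `𝟙`. -/
noncomputable def M₁ {k a : ℤ} (hk : k = a + 1) (n : ℕ) (hn : k = 2 * (n : ℤ))
    (x : (𝟙_ T)⟦k⟧ ⟶ U.cobar.B 1 (𝟙_ T)) :
    Mul1 (((U.tow (𝟙_ T)).map F).couple P) a :=
  mul1 ((U.tow (𝟙_ T)).map F) P k a hk (mapXi1 (U.tow (𝟙_ T)) F (ξ1 U k x))
    (mapXi1_comm (U.tow (𝟙_ T)) F (ξ1 U k x) (fun s => ξ1_comm U n hn x s))

variable {P} in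
/-- The operation on `Hom (P⟦t⟧, F 𝟙)` of a map `f : 𝟙⟦k⟧ ⟶ Z`. -/
noncomputable def act {k : ℤ} {Z : T} (f : (𝟙_ T)⟦k⟧ ⟶ Z) {t t' : ℤ} (ht : t + k = t')
    (y : P⟦t⟧ ⟶ F.obj (𝟙_ T)) : P⟦t'⟧ ⟶ F.obj Z :=
  sh t k t' ht y ≫ (F.commShiftIso k).inv.app (𝟙_ T) ≫ F.map f

variable {P} in
lemma act_comp {k : ℤ} {Z Z' : T} (f : (𝟙_ T)⟦k⟧ ⟶ Z) (g : Z ⟶ Z') {t t' : ℤ} (ht : t + k = t')
    (y : P⟦t⟧ ⟶ F.obj (𝟙_ T)) : act F (f ≫ g) ht y = act F f ht y ≫ F.map g := by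
  rw [act, act, F.map_comp, Category.assoc, Category.assoc]

/-- The product `α y` for `y` of filtration `0`: it vanishes if and only if the action of the map
`α : 𝟙⟦k⟧ ⟶ 𝟙⟦1⟧` vanishes. -/
lemma i_M₁_eq_zero_iff {k a : ℤ} (hk : k = a + 1) (m : ℕ) (hm : k = 2 * (m : ℤ))
    (x : (𝟙_ T)⟦k⟧ ⟶ U.cobar.B 1 (𝟙_ T)) {n t t' : ℤ} (h : n + ((0 : ℕ) : ℤ) = t)
    (ht : t + k = t') (y : P⟦t⟧ ⟶ F.obj (𝟙_ T)) :
    (((U.tow (𝟙_ T)).map F).couple P).i 0 (n + a) ((M₁ U P F hk m hm x).μ 0 n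
      ((((U.tow (𝟙_ T)).map F).eD P h).symm y)) = 0 ↔
      act F (x ≫ U.bd 0 (𝟙_ T)) ht y = 0 := by
  subst h; subst ht
  have h1 : n + a + ((0 + 1 : ℕ) : ℤ) = n + ((0 : ℕ) : ℤ) + k := by rw [hk]; push_cast; ring
  have h2 : n + a + ((0 : ℕ) : ℤ) + 1 = n + ((0 : ℕ) : ℤ) + k := by rw [hk]; push_cast; ring
  have h3 := ((U.tow (𝟙_ T)).map F).eD_i P rfl h1 h2 ((M₁ U P F hk m hm x).μ 0 n
    ((((U.tow (𝟙_ T)).map F).eD P rfl).symm y))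
  have h4 : ((U.tow (𝟙_ T)).map F).eD P h1 ((M₁ U P F hk m hm x).μ 0 n
      ((((U.tow (𝟙_ T)).map F).eD P rfl).symm y)) =
      act F x rfl y := by
    have key : ∀ (t t' : ℤ) (e : t = t') (e' : n + ((0 : ℕ) : ℤ) + k = t)
        (e'' : n + ((0 : ℕ) : ℤ) + k = t'),
        cst P (F.obj (U.cobar.B 1 (𝟙_ T))) e (sh (P := P) (n + ((0 : ℕ) : ℤ)) k t e' y ≫
          (F.commShiftIso k).inv.app (𝟙_ T) ≫ F.map (ξ1 U k x 0)) =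
        act F x e'' y := by
      rintro t _ rfl e' _
      rw [cst_rfl, act]
      have h5 : ξ1 U k x 0 = x := Category.id_comp _
      rw [h5]
    exact key _ _ h1 (by rw [hk]; push_cast; ring) rfl
  have h5 : act F (x ≫ U.bd 0 (𝟙_ T)) rfl y ≫
      (F.commShiftIso (1 : ℤ)).hom.app (𝟙_ T) = act F x rfl y ≫ ((U.tow (𝟙_ T)).map F).c 0 := by
    rw [act_comp, Category.assoc]
    rfl
  have h7 : sh (n + a + ((0 : ℕ) : ℤ)) 1 _ h2 (((U.tow (𝟙_ T)).map F).eD P rfl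
      ((((U.tow (𝟙_ T)).map F).couple P).i 0 (n + a) ((M₁ U P F hk m hm x).μ 0 n
        ((((U.tow (𝟙_ T)).map F).eD P rfl).symm y)))) =
      act F (x ≫ U.bd 0 (𝟙_ T)) rfl y ≫ (F.commShiftIso (1 : ℤ)).hom.app (𝟙_ T) :=
    h3.trans ((congrArg (· ≫ ((U.tow (𝟙_ T)).map F).c 0) h4).trans h5.symm)
  constructor
  · intro h
    rw [← cancel_mono ((F.commShiftIso (1 : ℤ)).hom.app (𝟙_ T)), zero_comp, ← h7]
    exact (sh_eq_zero_iff (Y := F.obj (𝟙_ T)) _ _ _ h2 _).2 h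
  · intro h
    rw [h, zero_comp] at h7
    exact (sh_eq_zero_iff (Y := F.obj (𝟙_ T)) _ _ _ h2 _).1 h7

end Cobar

end Vale.Agent.P257.H712
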