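import Vale.Agent.P257.H712.Onto
import Vale.Agent.P257.H712.TowMul1
import Vale.Agent.P257.H314.Stab
import Vale.Agent.P257.H314.Assemble

/-!
# P257, package TOP-2 (helper712): survival of `v_4` in the tower of `V(3)`

`exists_det_v4`: the class `v_4` lifts to `π_* V(3)`, from

* the vanishing statements `StabVan` (`V4Van`);
* `AlgOnto`: surjectivity of `b₁₀^N` onto the group of `d_{pq+1}`;
* the conclusion of the `k = 1` step (Leibniz rule);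
* the conclusion of the Toda lemma for `V(3)`.
-/

open CategoryTheory MonoidalCategory Limits Pretriangulated

set_option linter.unusedSectionVars false

universe v u

namespace Vale.Agent.P257.H712

open Vale.Agent.P251 Vale.Agent.P251.T Vale.Agent.P251.F Vale.Agent.P251.I
  Vale.Agent.P251.M Vale.Agent.P257.H314
open Vale.Agent.P251.S hiding IC
open Vale.Agent.P251.B (sphE)

/-- A version of `Lifts.succ_of_mul` with flexible indices. -/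
theorem Lifts.succ_of_mul' {C : Couple.{u, v}} {a : ℤ} {M : C.Mul2 a} (ME : MulE C M) {s : ℕ}
    {n m : ℤ} {K t : ℕ} (hm : m = Couple.Mul2.deg a n (K + 1)) (ht : t = s + 2 * (K + 1))
    {u : C.D 1 m} (hu : Lifts u t)
    (honto : ∀ b : C.E (s + 2 * (K + 1)) (Couple.Mul2.deg a n (K + 1)), C.IsCocycle b →
      ∃ e : C.E s n, C.IsCocycle e ∧ Null C 1 (b - ME.powE (K + 1) e))
    (hlift : ∀ e : C.E s n, C.IsCocycle e →
      ∃ ξ : C.D s n, C.j s n ξ = e ∧ powB M K (C.proj n (Nat.zero_le s) ξ) = 0) :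
    Lifts u (t + 1) := by
  subst hm; subst ht
  exact Lifts.succ_of_mul ME hu honto hlift

lemma powB_eq_zero_of_le {C : Couple.{u, v}} {a : ℤ} {M : C.Mul2 a} {s : ℕ} {n : ℤ} {K K' : ℕ}
    (h : K ≤ K') {y : C.D s n} (hy : powB M K y = 0) : powB M K' y = 0 := by
  induction K', h using Nat.le_induction with
  | base => exact hy
  | succ K' _ ih =>
    rw [powB_succ, ih, map_zero]
    rfl

/-! ### Numerology -/

section Num

variable {p : ℕ} [Fact p.Prime]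

/-- The multiples of the `v_j`, `j ≥ 4`, do not contribute below the weight of `v_4`. -/
lemma algVan_of_stab_lt {s : ℕ} {W : ℤ} (hW : W < Wn p 4 + s)
    (H : StabVan p s W) : AlgVan p 4 s (((p : ℤ) - 1) * W) := by
  refine algVan_of_stab (by norm_num) fun n e he => ?_
  by_cases h0 : ∀ i ∈ Finset.range n, e i = 0
  · have h1 : ∑ i ∈ Finset.range n, (e i : ℤ) * Wn p (4 + i) = 0 :=
      Finset.sum_eq_zero fun i hi => by rw [h0 i hi]; simp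
    rw [h1, sub_zero]
    exact H
  · exfalso
    push Not at h0
    obtain ⟨i, hi, hi0⟩ := h0
    have h1 : ((e i : ℤ) * Wn p (4 + i)) ≤ ∑ i ∈ Finset.range n, (e i : ℤ) * Wn p (4 + i) :=
      Finset.single_le_sum (f := fun i => (e i : ℤ) * Wn p (4 + i))
        (fun j _ => by positivity) hi
    have h2 : Wn p 4 ≤ Wn p (4 + i) := Wn_mono p (by omega)
    have h3 : (Wn p 4 : ℤ) ≤ (e i : ℤ) * Wn p (4 + i) := by
      have h4 : Wn p 4 ≤ e i * Wn p (4 + i) :=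
        h2.trans (Nat.le_mul_of_pos_left _ (Nat.pos_of_ne_zero hi0))
      exact_mod_cast h4
    omega

/-- Vanishing in all degrees from the vanishing of the sparse groups. -/
lemma algVan_of_sparse {h : ℕ} (hh : 1 ≤ h) {s₀ : ℕ} {W₀ : ℤ}
    {s : ℕ} {w : ℤ} (hs : 2 * w - s = 2 * (((p : ℤ) - 1) * W₀) - s₀)
    (H : ∀ k : ℤ, (s : ℤ) = s₀ + 2 * ((p : ℤ) - 1) * k →
      AlgVan p h s (((p : ℤ) - 1) * (W₀ + k))) : AlgVan p h s w := by
  by_cases h1 : ((p : ℤ) - 1) ∣ w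
  · obtain ⟨c, rfl⟩ := h1
    have h2 := H (c - W₀) (by linear_combination hs.symm)
    rwa [add_sub_cancel] at h2
  · exact algVan_line hh fun h => h1 h.1

lemma Wn_four (p : ℕ) : (Wn p 4 : ℤ) = 1 + p + p ^ 2 + p ^ 3 := by
  simp [Wn, Finset.sum_range_succ]

end Num

/-- The vanishing statements for the survival of `v_4`. -/
structure V4Van (p : ℕ) : Prop where
  /-- the targets of the differentials on `v_4`, except the first one and the `p`-th one -/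
  tgt : ∀ k : ℕ, 2 ≤ k → k ≠ p → StabVan p (2 * (p - 1) * k + 1) (Wn p 4 + k)
  /-- the targets of the differentials on `H^5` in weight `2p²+4p+1` -/
  lift : ∀ k : ℕ, 1 ≤ k → StabVan p (2 * (p - 1) * k + 6) (2 * p ^ 2 + 4 * p + 1 + k)
  /-- the groups of the stem of `α₁ ξ` -/
  alpha : ∀ k : ℕ, StabVan p (2 * (p - 1) * k + 6) (2 * p ^ 2 + 4 * p + 2 + k)

variable {T : Type u} [Category.{v} T] [Preadditive T] [HasZeroObject T]
    [HasShift T ℤ] [∀ n : ℤ, (shiftFunctor T n).Additive] [Pretriangulated T]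
    [MonoidalCategory T] [SymmetricCategory T] [TensorTriangulated T] [HasCoproducts.{0} T]
    [MonoidalClosed T] [IsTriangulated T] [HasProducts.{0} T] [StableCat T]
    {D : MUData T} (U : UnitCof D.R) {p : ℕ} [Fact p.Prime] {V : T} {i : 𝟙_ T ⟶ V}
    {C₀ : T} {iC₀ : 𝟙_ T ⟶ C₀}

/-- The couple of the tower of `V`. -/
noncomputable abbrev CV (U : UnitCof D.R) (V : T) : Couple.{v, v} :=
  ((U.tow (𝟙_ T)).map (tensorRight V)).couple (𝟙_ T)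

section Van

variable (H : Cyc D p 4 i) (hp : 5 ≤ p)

include H hp

/-- `Van` in the stem `2 (p-1) W₀ - s₀` from the vanishing of the sparse groups. -/
lemma van_of_sparse {s₀ : ℕ} {W₀ : ℤ} {s : ℕ} {m : ℤ}
    (hm : m = 2 * (((p : ℤ) - 1) * W₀) - s₀)
    (hv : ∀ k : ℤ, ((s + 1 : ℕ) : ℤ) = s₀ + 2 * ((p : ℤ) - 1) * k →
      AlgVan p 4 (s + 1) (((p : ℤ) - 1) * (W₀ + k))) : (CV U V).Van s m := by
  refine H.van U rfl fun w hw => algVan_of_sparse (by norm_num) (s₀ := s₀) (W₀ := W₀) ?_ hv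
  rw [hw, hm]
  ring

lemma van_lift (hV : V4Van p) {s : ℕ} (hs : 6 ≤ s) {m : ℤ}
    (hm : m = 2 * (((p : ℤ) - 1) * (2 * p ^ 2 + 4 * p + 1)) - 5 - 1) : (CV U V).Van s m := by
  refine van_of_sparse U H hp (s₀ := 6) (W₀ := 2 * p ^ 2 + 4 * p + 1) (by rw [hm]; push_cast; ring)
    fun k hk => ?_
  have hp' : (5 : ℤ) ≤ p := by exact_mod_cast hp
  have hk0 : 0 < k := by
    by_contra h
    have : 2 * ((p : ℤ) - 1) * k ≤ 0 := by nlinarith
    push_cast at hk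
    omega
  obtain ⟨k', rfl⟩ : ∃ k' : ℕ, k = k' := ⟨k.toNat, by omega⟩
  have e : s + 1 = 2 * (p - 1) * k' + 6 := by
    zify [show 1 ≤ p by omega]
    push_cast at hk
    linarith
  rw [e]
  refine algVan_of_stab_lt ?_ (hV.lift k' (by omega))
  rw [Wn_four]
  push_cast [Nat.cast_sub (show 1 ≤ p by omega)]
  have h1 : (0 : ℤ) ≤ (2 * ((p : ℤ) - 1) - 1) * k' := mul_nonneg (by linarith) (by omega)
  nlinarith [mul_nonneg (show (0 : ℤ) ≤ (p : ℤ) - 5 by linarith) (sq_nonneg (p : ℤ)),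
    mul_nonneg (show (0 : ℤ) ≤ (p : ℤ) - 5 by linarith) (show (0 : ℤ) ≤ (p : ℤ) by linarith)]

lemma van_alpha (hV : V4Van p) {s : ℕ} (hs : 5 ≤ s) {m : ℤ}
    (hm : m = 2 * (((p : ℤ) - 1) * (2 * p ^ 2 + 4 * p + 1)) - 5 + (2 * ((p : ℤ) - 1) - 1)) :
    (CV U V).Van s m := by
  refine van_of_sparse U H hp (s₀ := 6) (W₀ := 2 * p ^ 2 + 4 * p + 2) (by rw [hm]; push_cast; ring)
    fun k hk => ?_
  have hp' : (5 : ℤ) ≤ p := by exact_mod_cast hp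
  have hk0 : 0 ≤ k := by
    by_contra h
    have h1 : k ≤ -1 := by omega
    have : 2 * ((p : ℤ) - 1) * k ≤ -8 := by nlinarith
    push_cast at hk
    omega
  obtain ⟨k', rfl⟩ : ∃ k' : ℕ, k = k' := ⟨k.toNat, by omega⟩
  have e : s + 1 = 2 * (p - 1) * k' + 6 := by
    zify [show 1 ≤ p by omega]
    push_cast at hk
    linarith
  rw [e]
  refine algVan_of_stab_lt ?_ (hV.alpha k')
  rw [Wn_four]
  push_cast [Nat.cast_sub (show 1 ≤ p by omega)]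
  have h1 : (0 : ℤ) ≤ (2 * ((p : ℤ) - 1) - 1) * k' := mul_nonneg (by linarith) (by omega)
  nlinarith [mul_nonneg (show (0 : ℤ) ≤ (p : ℤ) - 5 by linarith) (sq_nonneg (p : ℤ)),
    mul_nonneg (show (0 : ℤ) ≤ (p : ℤ) - 5 by linarith) (show (0 : ℤ) ≤ (p : ℤ) by linarith)]

lemma van_tgt (hV : V4Van p) {s : ℕ} (hs : 1 ≤ s) (hs1 : s + 1 ≠ 2 * (p - 1) + 1)
    (hsp : s + 1 ≠ 2 * (p - 1) * p + 1) {m : ℤ} (hm : m = 2 * ((p : ℤ) ^ 4 - 1) - 1) :
    (CV U V).Van s m := by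
  have hW : (p : ℤ) ^ 4 - 1 = ((p : ℤ) - 1) * Wn p 4 := by rw [Wn_four]; ring
  refine van_of_sparse U H hp (s₀ := 1) (W₀ := Wn p 4) (by rw [hm, hW]; push_cast; ring)
    fun k hk => ?_
  have hp' : (5 : ℤ) ≤ p := by exact_mod_cast hp
  have hk0 : 0 < k := by
    by_contra h
    have : 2 * ((p : ℤ) - 1) * k ≤ 0 := by nlinarith
    push_cast at hk
    omega
  obtain ⟨k', rfl⟩ : ∃ k' : ℕ, k = k' := ⟨k.toNat, by omega⟩
  have e : s + 1 = 2 * (p - 1) * k' + 1 := by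
    zify [show 1 ≤ p by omega]
    push_cast at hk
    linarith
  have hk1 : k' ≠ 1 := fun h => hs1 (by rw [e, h, mul_one])
  have hkp : k' ≠ p := fun h => hsp (by rw [e, h])
  rw [e]
  refine algVan_of_stab_lt ?_ (hV.tgt k' (by omega) hkp)
  push_cast [Nat.cast_sub (show 1 ≤ p by omega)]
  have h1 : (0 : ℤ) ≤ (2 * ((p : ℤ) - 1) - 1) * k' := mul_nonneg (by linarith) (by omega)
  linarith

end Van

/-! ### The classes of `H^5` in weight `2p²+4p+1` -/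

/-- Every cocycle of filtration `5` in the stem `2 (p-1) (2p²+4p+1) - 5` lifts to homotopy, and
`β₁^K` kills its image in filtration `0` if `(p-1)² ≤ K`. -/
lemma exists_lift_kappa (H : IsST D p iC₀ 4 i) (hp : 5 ≤ p) (hV : V4Van p)
    (α : (𝟙_ T)⟦2 * ((p : ℤ) - 1)⟧ ⟶ U.cobar.B 1 (𝟙_ T))
    {a : ℤ} (M : (CV U V).Mul2 a)
    (hTL : ∀ (n : ℤ) (y : (CV U V).D 0 n),
      (CV U V).i 0 (n + (2 * ((p : ℤ) - 1) - 1)) ((M₁ U (𝟙_ T) (tensorRight V)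
        (k := 2 * ((p : ℤ) - 1)) (a := 2 * ((p : ℤ) - 1) - 1) (by ring) (p - 1)
        (by rw [Nat.cast_sub (by omega), Nat.cast_one]) α).μ 0 n y) = 0 →
      powB M ((p - 1) ^ 2) y = 0)
    {n : ℤ} (hn : n = 2 * (((p : ℤ) - 1) * (2 * p ^ 2 + 4 * p + 1)) - 5) {K : ℕ}
    (hK : (p - 1) ^ 2 ≤ K) (e : (CV U V).E 5 n) (he : (CV U V).IsCocycle e) :
    ∃ ξ : (CV U V).D 5 n, (CV U V).j 5 n ξ = e ∧
      powB M K ((CV U V).proj n (Nat.zero_le 5) ξ) = 0 := by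
  obtain ⟨ξ, hξ⟩ := exists_lift_of_van (C := CV U V) (show n = (n - 1) + 1 by ring) e he
    (fun s' hs' => van_lift U H.cyc hp hV hs' (by rw [hn])) (n.toNat + 7) (by omega)
    (fun y => D_eq_zero U H.bigCell (by push_cast; omega) y)
  refine ⟨ξ, hξ, powB_eq_zero_of_le hK (hTL n _ ?_)⟩
  have hv : ∀ s' ≥ 5, (CV U V).Van s' (n + (2 * ((p : ℤ) - 1) - 1)) := fun s' hs' =>
    van_alpha U H.cyc hp hV hs' (by rw [hn])
  exact Mul1.i_μ_proj_eq_zero _ ξ hv ((n + (2 * ((p : ℤ) - 1) - 1)).toNat + 5 + 1) (by omega)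
    (fun y => D_eq_zero U H.bigCell (by push_cast; omega) y)

/-! ### The class `v_4` -/

/-- The cochain `v_4` of the cobar complex of `V`. -/
noncomputable def v4Q (U : UnitCof D.R) (p : ℕ) (i : 𝟙_ T ⟶ V) :
    (𝟙_ T)⟦(2 * ((p : ℤ) ^ 4 - 1) : ℤ)⟧ ⟶ (tensorRight V).obj (U.cobar.Q (0 + 1) (𝟙_ T)) :=
  (sI T ((p : ℤ) ^ 4 - 1)).inv ≫ D.phi U 0 ((p : ℤ) ^ 4 - 1) (vw p 4 0) ≫
    (redC i).app (U.cobar.Q 1 (𝟙_ T))

/-- The class `v_4` in the `E₁`-term of the tower of `V`. -/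
noncomputable def v4E (U : UnitCof D.R) (p : ℕ) (i : 𝟙_ T ⟶ V) :
    (CV U V).E 0 (2 * ((p : ℤ) ^ 4 - 1)) :=
  U.qE (𝟙_ T) (tensorRight V) (𝟙_ T) (by simp) (v4Q U p i)

lemma v4E_isCocycle (H : Cyc D p 4 i) : (CV U V).IsCocycle (v4E U p i) := by
  have hc : v4Q U p i ≫ (tensorRight V).map (U.cobar.d 1 (𝟙_ T)) = 0 := by
    have := (H.cocycle_iff U 0 ((p : ℤ) ^ 4 - 1) (vw p 4 0)).2 (d_v_mem p 4)
    change v4Q U p i ≫ (U.cobar.d 1 (𝟙_ T) ▷ V) = 0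
    rw [Category.assoc] at this
    rw [v4Q, Category.assoc, Category.assoc]
    refine (congrArg _ this).trans comp_zero
  intro m hm
  have h3 : m + ((0 + 1 : ℕ) : ℤ) = 2 * ((p : ℤ) ^ 4 - 1) := by push_cast; omega
  rw [v4E, U.d_qE (𝟙_ T) (tensorRight V) (𝟙_ T) hm _ h3 (v4Q U p i)]
  refine (congrArg _ hc).trans (map_zero _)

/-- If the class `v_4` lifts to `D 0` then it is detected by a homotopy class. -/
lemma det_of_j_eq (y : (CV U V).D 0 (2 * ((p : ℤ) ^ 4 - 1)))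
    (hy : (CV U V).j 0 _ y = v4E U p i) :
    ∃ x : (stdEven T).S ((p ^ 4 : ℤ) - 1) ⟶ V, Det D i x (vw p 4 0) := by
  have h0 : 2 * ((p : ℤ) ^ 4 - 1) + ((0 : ℕ) : ℤ) = 2 * ((p : ℤ) ^ 4 - 1) := by simp
  have h4 := congrArg (U.eT (𝟙_ T) (tensorRight V) (𝟙_ T) h0) hy
  rw [v4E, U.eT_qE] at h4
  have h5 := Tow.eE_j ((U.tow (𝟙_ T)).map (tensorRight V)) (𝟙_ T) h0 y
  obtain ⟨y', h6⟩ : ∃ y' : (𝟙_ T)⟦(2 * ((p : ℤ) ^ 4 - 1) : ℤ)⟧ ⟶ 𝟙_ T ⊗ V,
      y' ≫ (unitMap D.R (𝟙_ T) ▷ V) = v4Q U p i := by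
    refine ⟨Tow.eD ((U.tow (𝟙_ T)).map (tensorRight V)) (𝟙_ T) h0 y, ?_⟩
    refine h5.symm.trans (h4.trans ?_)
    rw [CobarData.q_zero, CategoryTheory.Functor.map_id]
    exact Category.comp_id (v4Q U p i)
  refine ⟨((sI T ((p : ℤ) ^ 4 - 1)).hom ≫ y') ≫ (λ_ V).hom, (det_iff U _ _).2 ?_⟩
  rw [Category.assoc, h6, v4Q, Iso.hom_inv_id_assoc]

/-- **Survival of `v_4`.** -/
theorem exists_det_v4 (H : IsST D p iC₀ 4 i) (hp : 5 ≤ p) (hV : V4Van p)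
    {t : Cob Laz 1} (hb : Cob.IsWt ((p : ℤ) * ((p : ℤ) - 1)) (bcls p t))
    (x : (𝟙_ T)⟦2 * ((p : ℤ) * ((p : ℤ) - 1))⟧ ⟶ U.cobar.B 2 (𝟙_ T))
    (hξ : ∀ s, U.ξ (2 * ((p : ℤ) * ((p : ℤ) - 1))) x (s + 1) ≫ (U.tow (𝟙_ T)).c (s + 2) =
      ((U.tow (𝟙_ T)).c s)⟦2 * ((p : ℤ) * ((p : ℤ) - 1))⟧' ≫
        (shiftFunctorComm T (1 : ℤ) (2 * ((p : ℤ) * ((p : ℤ) - 1)))).hom.app
          ((U.tow (𝟙_ T)).J s) ≫
        (U.ξ (2 * ((p : ℤ) * ((p : ℤ) - 1))) x s)⟦(1 : ℤ)⟧')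
    (hx : ((sphE T ((p : ℤ) * ((p : ℤ) - 1))).inv ≫
        D.phi U 2 ((p : ℤ) * ((p : ℤ) - 1)) ⟨bcls p t, hb⟩) ≫ U.cobar.q 2 (𝟙_ T) =
      x ≫ unitMap D.R _)
    (hO : AlgOnto p 4 (bcls p t) ((p : ℤ) * ((p : ℤ) - 1)) 5
      (((p : ℤ) - 1) * (2 * p ^ 2 + 4 * p + 1)) (p ^ 2 - p - 3))
    (α : (𝟙_ T)⟦2 * ((p : ℤ) - 1)⟧ ⟶ U.cobar.B 1 (𝟙_ T))
    (hTL : ∀ (n : ℤ) (y : (CV U V).D 0 n),
      (CV U V).i 0 (n + (2 * ((p : ℤ) - 1) - 1)) ((M₁ U (𝟙_ T) (tensorRight V)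
        (k := 2 * ((p : ℤ) - 1)) (a := 2 * ((p : ℤ) - 1) - 1) (by ring) (p - 1)
        (by rw [Nat.cast_sub (by omega), Nat.cast_one]) α).μ 0 n y) = 0 →
      powB (M₂ U (𝟙_ T) (tensorRight V) (a := 2 * ((p : ℤ) * ((p : ℤ) - 1)) - 2)
        (by ring) x hξ) ((p - 1) ^ 2) y = 0)
    (hL : ∀ y : (CV U V).D (2 * (p - 1) + 1) (2 * ((p : ℤ) ^ 4 - 1) - 1),
      (CV U V).proj _ (Nat.le_add_left 1 _) y = (CV U V).k 0 _ _ (by ring) (v4E U p i) →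
      Null (CV U V) 1 ((CV U V).j _ _ y)) :
    ∃ x : (stdEven T).S ((p ^ 4 : ℤ) - 1) ⟶ V, Det D i x (vw p 4 0) := by
  have hp' : (5 : ℤ) ≤ p := by exact_mod_cast hp
  have hpp : 5 * p ≤ p ^ 2 := by rw [sq]; exact Nat.mul_le_mul_right p hp
  set b := v4E U p i with hbdef
  set m : ℤ := 2 * ((p : ℤ) ^ 4 - 1) - 1 with hm
  set u := (CV U V).k 0 (2 * ((p : ℤ) ^ 4 - 1)) m (by rw [hm]; ring) b with hu
  -- filtrations 2 to 2p-1
  have L2 : Lifts u 2 := lifts_two (r := 0) _ b (v4E_isCocycle U H.cyc)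
  have L3 : Lifts u (2 * (p - 1) + 1) := Lifts.of_van (r := 1) (by omega) (by omega) L2
    fun s hs hs' => van_tgt U H.cyc hp hV (by omega) (by omega) (by
      intro h
      have : 2 * (p - 1) * 1 ≤ 2 * (p - 1) * p := Nat.mul_le_mul_left _ (by omega)
      omega) rfl
  -- filtration 2p-1
  have L4 : Lifts u (2 * (p - 1) + 1 + 1) := L3.succ_of_kill fun h y hy => hL y hy
  -- filtrations 2p to p(2p-2)+1
  have h1 : 2 * (p - 1) + 2 ≤ 2 * (p - 1) * p + 1 := by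
    have : 2 * (p - 1) * 5 ≤ 2 * (p - 1) * p := Nat.mul_le_mul_left _ hp
    omega
  have L5 : Lifts u (2 * (p - 1) * p + 1) := Lifts.of_van (r := 1) (by omega) h1 L4
    fun s hs hs' => van_tgt U H.cyc hp hV (by omega) (by omega) (by omega) rfl
  -- filtration p(2p-2)+1
  obtain ⟨K, hK⟩ : ∃ K, K = p ^ 2 - p - 3 := ⟨_, rfl⟩
  have hK' : (K : ℤ) = (p : ℤ) ^ 2 - p - 3 := by
    rw [hK, Nat.sub_sub, Nat.cast_sub (by omega)]
    push_cast
    ring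
  rw [← hK] at hO
  obtain ⟨n, hn⟩ : ∃ n, n = 2 * (((p : ℤ) - 1) * (2 * p ^ 2 + 4 * p + 1)) - 5 := ⟨_, rfl⟩
  have L6 : Lifts u (2 * (p - 1) * p + 1 + 1) := by
    refine Lifts.succ_of_mul' (ME₂ U (𝟙_ T) (tensorRight V)
      (a := 2 * ((p : ℤ) * ((p : ℤ) - 1)) - 2) (by ring) x hξ) (s := 5) (n := n) (K := K)
      ?_ ?_ L5 ?_ ?_
    · rw [Couple.Mul2.deg_eq, hm, hn]
      push_cast
      rw [hK']
      ring
    · zify [show 1 ≤ p by omega]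
      rw [hK']
      ring
    · intro e he
      obtain ⟨e₀, he₀, hnull⟩ := onto_of_alg H.cyc hb (by ring) (sphE T _) x hξ _ hx
        ((realizes_iff (sphE T _) ⟨bcls p t, hb⟩ _).2 rfl) (by rw [hn]; push_cast; ring) hO e he
      exact ⟨e₀, he₀, hnull.mono (by omega)⟩
    · intro e he
      refine exists_lift_kappa U H hp hV α _ hTL hn ?_ e he
      zify [show 1 ≤ p by omega]
      rw [hK']
      nlinarith
  -- the remaining filtrations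
  have L7 : Lifts u (2 * (p - 1) * p + 2 + (m.toNat + 1)) :=
    Lifts.of_van (r := 1) (by omega) (by omega) L6
    fun s hs hs' => van_tgt U H.cyc hp hV (by omega) (by
      have : 2 * (p - 1) * 5 ≤ 2 * (p - 1) * p := Nat.mul_le_mul_left _ hp
      omega) (by omega) rfl
  have hN : m.toNat < 2 * (p - 1) * p + 2 + (m.toNat + 1) := by omega
  obtain ⟨y, hy⟩ := exists_j_eq (r := 0) _ b _ L7 fun y =>
    D_eq_zero U H.bigCell (lt_of_le_of_lt (Int.self_le_toNat m) (by exact_mod_cast hN)) y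
  exact det_of_j_eq U y hy

end Vale.Agent.P257.H712
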