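import Vale.Agent.P251.S.ExactCouple

/-!
# P257, package TOP-2 (helper712): survival of a class in an exact couple of Adams type

Pure algebra of exact couples (`Vale.Agent.P251.S.Couple`).  `u : D 1 m` is the boundary of a class
`b : E 0 n`.  `Lifts u t` says that `u` comes from `D t m` (`t ≥ 1`).  We show how to go from `t` to
`t + 1`:

* `Lifts.succ_of_van`: the `E₂`-term vanishes;
* `Lifts.succ_of_kill`: every class of the `E₂`-term is the class of an element of `D t m` which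
  dies in `D 1 m`;
* `Lifts.succ_of_mul`: every class of the `E₂`-term is `x^K` times the class of an element `ξ` with
  `β^K ξ = 0`, where `β ∈ D^0` is the image of the filtration `2` class `x`.

`exists_j_eq`: if `k b` lifts to a stage where `D` is zero, then `b` is in the image of `j`.

`survive` puts everything together.
-/

universe u v

namespace Vale.Agent.P257.H712

open Vale.Agent.P251.S

section Basic

variable (C : Couple.{u, v})

lemma proj_add {n : ℤ} {b a : ℕ} (h : b ≤ a) (y y' : C.D a n) :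
    C.proj n h (y + y') = C.proj n h y + C.proj n h y' := by
  induction a, h using Nat.le_induction with
  | base => rw [C.proj_self, C.proj_self, C.proj_self]
  | succ a h ih => rw [C.proj_succ n h, C.proj_succ n h, C.proj_succ n h, map_add, ih]

lemma proj_neg {n : ℤ} {b a : ℕ} (h : b ≤ a) (y : C.D a n) :
    C.proj n h (-y) = -C.proj n h y := by
  rw [eq_neg_iff_add_eq_zero, ← proj_add, neg_add_cancel, C.proj_zero']

lemma proj_sub {n : ℤ} {b a : ℕ} (h : b ≤ a) (y y' : C.D a n) :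
    C.proj n h (y - y') = C.proj n h y - C.proj n h y' := by
  rw [sub_eq_add_neg, proj_add, proj_neg, ← sub_eq_add_neg]

lemma proj_zsmul {n : ℤ} {b a : ℕ} (h : b ≤ a) (c : ℤ) (y : C.D a n) :
    C.proj n h (c • y) = c • C.proj n h y := by
  induction a, h using Nat.le_induction with
  | base => rw [C.proj_self, C.proj_self]
  | succ a h ih => rw [C.proj_succ n h, C.proj_succ n h, map_zsmul, ih]

lemma proj_proj {n : ℤ} {c b a : ℕ} (h : c ≤ b) (h' : b ≤ a) (y : C.D a n) :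
    C.proj n h (C.proj n h' y) = C.proj n (h.trans h') y := by
  induction a, h' using Nat.le_induction with
  | base => rw [C.proj_self]
  | succ a h' ih => rw [C.proj_succ n h', ih, ← C.proj_succ n (h.trans h')]

lemma proj_one {n : ℤ} {s : ℕ} (y : C.D (s + 1) n) :
    C.proj n (Nat.le_succ s) y = C.i s n y := by
  rw [C.proj_succ n (le_refl s), C.proj_self]

lemma proj_k {n m : ℤ} (h : n = m + 1) {b s : ℕ} (hb : b ≤ s + 1) (hb' : b ≤ s) (z : C.E s n) :
    C.proj m hb (C.k s n m h z) = 0 := by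
  rw [C.proj_succ m hb', C.i_k, C.proj_zero']

/-- The classes in `E t m` of elements of `D t m` which die in `D r m`. -/
def Null (r : ℕ) {t : ℕ} {m : ℤ} (b : C.E t m) : Prop :=
  ∃ h : r ≤ t, ∃ c : C.D t m, C.proj m h c = 0 ∧ C.j t m c = b

variable {C}

lemma Null.add {r t : ℕ} {m : ℤ} {b b' : C.E t m} (hb : Null C r b) (hb' : Null C r b') :
    Null C r (b + b') := by
  obtain ⟨h, c, hc, rfl⟩ := hb
  obtain ⟨_, c', hc', rfl⟩ := hb'
  exact ⟨h, c + c', by rw [proj_add, hc, hc', add_zero], map_add _ _ _⟩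

lemma Null.mono {r r' t : ℕ} {m : ℤ} {b : C.E t m} (hr : r' ≤ r) (hb : Null C r b) :
    Null C r' b := by
  obtain ⟨h, c, hc, rfl⟩ := hb
  exact ⟨hr.trans h, c, by rw [← proj_proj C hr h, hc, C.proj_zero'], rfl⟩

lemma null_of_isCobdy {s : ℕ} {m : ℤ} {b : C.E (s + 1) m} (hb : C.IsCobdy b) : Null C s b := by
  obtain ⟨z, rfl⟩ := hb
  exact ⟨Nat.le_succ s, C.k s (m + 1) m rfl z, proj_k C rfl _ le_rfl z, rfl⟩

/-- `u : D r m` comes from `D t m`. -/
def Lifts {r : ℕ} {m : ℤ} (u : C.D r m) (t : ℕ) : Prop :=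
  ∃ h : r ≤ t, ∃ y : C.D t m, C.proj m h y = u

lemma lifts_self {r : ℕ} {m : ℤ} (u : C.D r m) : Lifts u r := ⟨le_rfl, u, C.proj_self _ _ _⟩

/-- The second stage: `k b` lifts to `D (r + 2)` if `b : E r n` is a cocycle. -/
lemma lifts_two {r : ℕ} {n m : ℤ} (h : n = m + 1) (b : C.E r n) (hb : C.IsCocycle b) :
    Lifts (C.k r n m h b) (r + 2) := by
  obtain ⟨y, hy⟩ := C.exact_j _ _ _ (hb m h)
  exact ⟨by omega, y, by rw [C.proj_succ m (le_refl (r + 1)), C.proj_self]; exact hy⟩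

/-- The general step. -/
lemma Lifts.succ_of_kill {r : ℕ} {m : ℤ} {u : C.D r m} {t : ℕ} (hu : Lifts u t)
    (hk : ∀ (h : r ≤ t) (y : C.D t m), C.proj m h y = u → Null C r (C.j t m y)) :
    Lifts u (t + 1) := by
  obtain ⟨h, y, hy⟩ := hu
  obtain ⟨_, c, hc, hjc⟩ := hk h y hy
  have h0 : C.j t m (y - c) = 0 := by rw [map_sub, hjc, sub_self]
  obtain ⟨y', hy'⟩ := C.exact_j _ _ _ h0
  exact ⟨by omega, y', by rw [C.proj_succ m h, hy', proj_sub, hc, hy, sub_zero]⟩

/-- The step with vanishing `E₂`-term. -/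
lemma Lifts.succ_of_van {r : ℕ} {m : ℤ} {u : C.D r m} {s : ℕ} (hs : r ≤ s)
    (hu : Lifts u (s + 1)) (hv : C.Van s m) : Lifts u (s + 2) :=
  hu.succ_of_kill fun _ y _ => (null_of_isCobdy (hv _ (C.isCocycle_j y))).mono hs

/-- Several steps with vanishing `E₂`-terms. -/
lemma Lifts.of_van {r : ℕ} {m : ℤ} {u : C.D r m} {t t' : ℕ} (ht : r + 1 ≤ t) (htt' : t ≤ t')
    (hu : Lifts u t) (hv : ∀ s, t ≤ s + 1 → s + 1 < t' → C.Van s m) : Lifts u t' := by
  induction t', htt' using Nat.le_induction with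
  | base => exact hu
  | succ t' h ih =>
    obtain ⟨s, rfl⟩ : ∃ s, t' = s + 1 := ⟨t' - 1, by omega⟩
    exact (ih fun s hs hs' => hv s hs (by omega)).succ_of_van (by omega)
      (hv s h (by omega))

/-- The conclusion of the lifting procedure. -/
theorem exists_j_eq {r : ℕ} {n m : ℤ} (h : n = m + 1) (b : C.E r n) (N : ℕ)
    (hl : Lifts (C.k r n m h b) N) (hN : ∀ y : C.D N m, y = 0) :
    ∃ x : C.D r n, C.j r n x = b := by
  apply C.exact_k r n m h
  obtain ⟨h1, y, hy⟩ := hl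
  rw [← hy, hN y, C.proj_zero']

/-- An element of `D (s+1)` is zero in `D s` if all the `E₂`-terms from `s + 1` on vanish and `D`
vanishes at some stage. -/
theorem i_eq_zero_of_van {s : ℕ} {m : ℤ} (hv : ∀ s' ≥ s, C.Van s' m) (N : ℕ) (hN : s ≤ N)
    (hD : ∀ y : C.D N m, y = 0) (y : C.D (s + 1) m) : C.i s m y = 0 := by
  obtain ⟨r, rfl⟩ : ∃ r, N = s + r := ⟨N - s, by omega⟩
  obtain ⟨y', hy'⟩ := C.exists_iN_eq hv y r
  rw [← hy', hD y', map_zero]

/-- Every cocycle of `E s` lifts to `D s` if the targets of the differentials vanish. -/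
theorem exists_lift_of_van {s : ℕ} {n m : ℤ} (h : n = m + 1) (b : C.E s n)
    (hb : C.IsCocycle b) (hv : ∀ s' ≥ s + 1, C.Van s' m) (N : ℕ) (hN : s + 1 ≤ N)
    (hD : ∀ y : C.D N m, y = 0) : ∃ x : C.D s n, C.j s n x = b := by
  obtain ⟨r, rfl⟩ : ∃ r, N = s + 1 + r := ⟨N - (s + 1), by omega⟩
  exact C.exists_lift h b hb hv r hD

end Basic

/-! ### Multiplication by a class of filtration `2` -/

section Mul

variable {C : Couple.{u, v}} {a : ℤ} (M : C.Mul2 a)

/-- The iterated multiplication `D s n → D (s + 2 K) (n + K a)`. -/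
def powD {s : ℕ} {n : ℤ} : ∀ K : ℕ, C.D s n →+ C.D (s + 2 * K) (Couple.Mul2.deg a n K)
  | 0 => AddMonoidHom.id _
  | K + 1 => (M.μ (s + 2 * K) (Couple.Mul2.deg a n K)).comp (powD K)

lemma powD_zero {s : ℕ} {n : ℤ} (y : C.D s n) : powD M 0 y = y := rfl

lemma powD_succ {s : ℕ} {n : ℤ} (K : ℕ) (y : C.D s n) :
    powD M (K + 1) y = M.μ (s + 2 * K) (Couple.Mul2.deg a n K) (powD M K y) := rfl

/-- The multiplication by the image `β` of `x` in filtration `0`. -/
def mulB (s : ℕ) (n : ℤ) : C.D s n →+ C.D s (n + a) :=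
  (C.i s (n + a)).comp ((C.i (s + 1) (n + a)).comp (M.μ s n))

lemma mulB_apply (s : ℕ) (n : ℤ) (y : C.D s n) :
    mulB M s n y = C.i s (n + a) (C.i (s + 1) (n + a) (M.μ s n y)) := rfl

/-- The iterated multiplication by `β`. -/
def powB {s : ℕ} {n : ℤ} : ∀ K : ℕ, C.D s n →+ C.D s (Couple.Mul2.deg a n K)
  | 0 => AddMonoidHom.id _
  | K + 1 => (mulB M s (Couple.Mul2.deg a n K)).comp (powB K)

lemma powB_zero {s : ℕ} {n : ℤ} (y : C.D s n) : powB M 0 y = y := rfl

lemma powB_succ {s : ℕ} {n : ℤ} (K : ℕ) (y : C.D s n) :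
    powB M (K + 1) y = mulB M s (Couple.Mul2.deg a n K) (powB M K y) := rfl

/-- The image in `D s` of `x^K y` is `β^K y`. -/
lemma proj_powD {s : ℕ} {n : ℤ} (K : ℕ) (y : C.D s n) :
    C.proj _ (Nat.le_add_right s (2 * K)) (powD M K y) = powB M K y := by
  induction K with
  | zero => exact C.proj_self _ _ _
  | succ K ih =>
    have h1 : s ≤ s + 2 * K := Nat.le_add_right s (2 * K)
    have h2 := M.proj_μ (Couple.Mul2.deg a n K) h1 (powD M K y)
    rw [ih] at h2
    have h3 := proj_proj C (n := Couple.Mul2.deg a n K + a) (Nat.le_add_right s 2)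
      (Nat.add_le_add_right h1 2) (M.μ (s + 2 * K) (Couple.Mul2.deg a n K) (powD M K y))
    rw [h2] at h3
    rw [powB_succ, mulB_apply]
    refine Eq.trans ?_ (h3.symm.trans ?_)
    · rfl
    · rw [C.proj_succ _ (Nat.le_succ s), proj_one]

variable (C) in
/-- The multiplication on the `E₁`-term. -/
structure MulE (M : C.Mul2 a) where
  /-- the maps -/
  μE : ∀ s n, C.E s n →+ C.E (s + 2) (n + a)
  j_μ : ∀ s n y, C.j (s + 2) (n + a) (M.μ s n y) = μE s n (C.j s n y)

variable {M} (ME : MulE C M)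

/-- The iterated multiplication on the `E₁`-term. -/
def MulE.powE {s : ℕ} {n : ℤ} : ∀ K : ℕ, C.E s n →+ C.E (s + 2 * K) (Couple.Mul2.deg a n K)
  | 0 => AddMonoidHom.id _
  | K + 1 => (ME.μE (s + 2 * K) (Couple.Mul2.deg a n K)).comp (powE K)

lemma MulE.powE_zero {s : ℕ} {n : ℤ} (y : C.E s n) : ME.powE 0 y = y := rfl

lemma MulE.powE_succ {s : ℕ} {n : ℤ} (K : ℕ) (y : C.E s n) :
    ME.powE (K + 1) y = ME.μE (s + 2 * K) (Couple.Mul2.deg a n K) (ME.powE K y) := rfl

lemma MulE.j_powD {s : ℕ} {n : ℤ} (K : ℕ) (y : C.D s n) :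
    C.j _ _ (powD M K y) = ME.powE K (C.j s n y) := by
  induction K with
  | zero => rfl
  | succ K ih => rw [powD_succ, ME.powE_succ, ← ih, ← ME.j_μ]; rfl

/-- The image of `x^K ξ` in filtration `0`. -/
lemma proj_zero_powD {s : ℕ} {n : ℤ} (K : ℕ) (ξ : C.D s n) :
    C.proj _ (Nat.zero_le (s + 2 * K)) (powD M K ξ) =
      powB M K (C.proj n (Nat.zero_le s) ξ) := by
  induction K with
  | zero => rfl
  | succ K ih =>
    have h1 : 0 ≤ s + 2 * K := Nat.zero_le _
    have h2 := M.proj_μ (Couple.Mul2.deg a n K) h1 (powD M K ξ)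
    rw [ih] at h2
    have h3 := proj_proj C (n := Couple.Mul2.deg a n K + a) (Nat.zero_le 2)
      (Nat.add_le_add_right h1 2) (M.μ (s + 2 * K) (Couple.Mul2.deg a n K) (powD M K ξ))
    rw [powB_succ, mulB_apply, ← proj_one C, ← proj_one C, proj_proj]
    refine h3.symm.trans ?_
    exact congrArg _ h2

/-- The image of `x^(K+1) ξ` in filtration `2`. -/
lemma proj_two_powD {s : ℕ} {n : ℤ} (K : ℕ) (ξ : C.D s n) (h : 2 ≤ s + 2 * (K + 1)) :
    C.proj _ h (powD M (K + 1) ξ) =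
      M.μ 0 (Couple.Mul2.deg a n K) (powB M K (C.proj n (Nat.zero_le s) ξ)) := by
  have h1 : 0 ≤ s + 2 * K := Nat.zero_le _
  have h2 := M.proj_μ (Couple.Mul2.deg a n K) h1 (powD M K ξ)
  rw [proj_zero_powD] at h2
  exact h2

/-- The step where every class of the `E₂`-term is `x^(K+1)` times the class of an element `ξ` with
`β^K ξ = 0` in filtration `0`. -/
theorem Lifts.succ_of_mul {s : ℕ} {n : ℤ} {K : ℕ}
    {u : C.D 1 (Couple.Mul2.deg a n (K + 1))} (hu : Lifts u (s + 2 * (K + 1)))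
    (honto : ∀ b : C.E (s + 2 * (K + 1)) (Couple.Mul2.deg a n (K + 1)), C.IsCocycle b →
      ∃ e : C.E s n, C.IsCocycle e ∧ Null C 1 (b - ME.powE (K + 1) e))
    (hlift : ∀ e : C.E s n, C.IsCocycle e →
      ∃ ξ : C.D s n, C.j s n ξ = e ∧ powB M K (C.proj n (Nat.zero_le s) ξ) = 0) :
    Lifts u (s + 2 * (K + 1) + 1) := by
  refine hu.succ_of_kill fun h y _ => ?_
  obtain ⟨e, he, hn⟩ := honto _ (C.isCocycle_j y)
  obtain ⟨ξ, hξ, hβ⟩ := hlift e he
  have h1 : Null C 1 (ME.powE (K + 1) e) := by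
    refine ⟨h, powD M (K + 1) ξ, ?_, ?_⟩
    · have h2 : 2 ≤ s + 2 * (K + 1) := by omega
      have h3 : C.proj _ h2 (powD M (K + 1) ξ) = 0 := by
        rw [proj_two_powD, hβ, map_zero]
        rfl
      rw [← proj_proj C (show 1 ≤ 2 by norm_num) h2, h3, C.proj_zero']
    · rw [ME.j_powD, hξ]
  have := hn.add h1
  rwa [sub_add_cancel] at this

end Mul

/-! ### Multiplication by a class of filtration `1` -/

section Mul1

variable {C : Couple.{u, v}} {a : ℤ}

variable (C) in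
/-- Multiplication by an element of filtration `1` and degree `a`. -/
structure Mul1 (a : ℤ) where
  /-- the maps -/
  μ : ∀ s n, C.D s n →+ C.D (s + 1) (n + a)
  i_μ : ∀ s n y, C.i (s + 1) (n + a) (μ (s + 1) n y) = μ s n (C.i s n y)

variable (M : Mul1 C a)

lemma Mul1.proj_μ (n : ℤ) {b c : ℕ} (h : b ≤ c) (y : C.D c n) :
    C.proj (n + a) (Nat.add_le_add_right h 1) (M.μ c n y) = M.μ b n (C.proj n h y) := by
  induction c, h using Nat.le_induction with
  | base => rw [C.proj_self, C.proj_self]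
  | succ c h ih =>
    rw [C.proj_succ n h, ← ih, ← M.i_μ, ← C.proj_succ]

/-- If the `E₂`-terms in filtration `≥ s + 1` vanish in the stem of `α ξ`, then `α ξ₀ = 0`. -/
theorem Mul1.i_μ_proj_eq_zero {s : ℕ} {n : ℤ} (ξ : C.D s n)
    (hv : ∀ s' ≥ s, C.Van s' (n + a)) (N : ℕ) (hN : s ≤ N)
    (hD : ∀ y : C.D N (n + a), y = 0) :
    C.i 0 (n + a) (M.μ 0 n (C.proj n (Nat.zero_le s) ξ)) = 0 := by
  have h1 := M.proj_μ n (Nat.zero_le s) ξ
  have h2 := i_eq_zero_of_van (C := C) hv N hN hD (M.μ s n ξ)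
  rw [← h1, ← proj_one C, proj_proj]
  have h3 : C.proj (n + a) (Nat.zero_le (s + 1)) (M.μ s n ξ) =
      C.proj (n + a) (Nat.zero_le s) (C.i s (n + a) (M.μ s n ξ)) := C.proj_succ _ _ _
  exact h3.trans (by rw [h2, C.proj_zero'])

end Mul1

end Vale.Agent.P257.H712
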