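import Vale.Agent.P257.H712.Survive

/-!
# P257 (helper712): an element which dies in filtration `b` has a boundary as its class

Piece P4 of the `k = 1` step.
-/

universe u v

namespace Vale.Agent.P257.H820

open Vale.Agent.P251.S

lemma proj_eq_zero_of_van {C : Couple.{u, v}} {b t : ℕ} (hb : 1 ≤ b) {m : ℤ}
    (c : C.D (t + 1) m) (hbt : b ≤ t + 1) (hc : C.proj m hbt c = 0)
    (hv : ∀ s, b ≤ s + 1 → s + 1 < t → C.Van s (m + 1)) (b' : ℕ) (h : b ≤ b') :
    ∀ h' : b' ≤ t, C.proj m (Nat.le_succ_of_le h') c = 0 := by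
  induction b', h using Nat.le_induction with
  | base => exact fun _ => hc
  | succ a h ih =>
    intro h'
    have h0 := ih (by omega)
    have h1 : C.i a m (C.proj m (Nat.le_succ_of_le h') c) = 0 := by
      rw [C.i_proj m (Nat.le_succ_of_le h') c]
      exact h0
    obtain ⟨z, hz⟩ := C.exact_i a (m + 1) m rfl _ h1
    have hcoc : C.IsCocycle z := by
      intro l hl
      obtain rfl : l = m := by linarith
      rw [Couple.d_apply, hz, ← C.i_proj l (by omega : a + 1 + 1 ≤ t + 1) c, C.j_i]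
    obtain ⟨s, rfl⟩ : ∃ s, a = s + 1 := ⟨a - 1, by omega⟩
    obtain ⟨z', hz'⟩ := hv s h (by omega) z hcoc
    rw [← hz, ← hz', Couple.d_apply, C.k_j]

/-- (P4) An element which dies in filtration `b` has a boundary as its class. -/
theorem isCobdy_of_proj_eq_zero {C : Couple.{u, v}} {b t : ℕ} (hb : 1 ≤ b) (hbt : b ≤ t + 1)
    (hbt' : b ≤ t) {m : ℤ} (c : C.D (t + 1) m) (hc : C.proj m hbt c = 0)
    (hv : ∀ s, b ≤ s + 1 → s + 1 < t → C.Van s (m + 1)) : C.IsCobdy (C.j (t + 1) m c) := by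
  have h0 := proj_eq_zero_of_van hb c hbt hc hv t hbt' le_rfl
  have h1 : C.i t m c = 0 := by
    rw [← h0, ← Vale.Agent.P257.H712.proj_one]
  obtain ⟨z, hz⟩ := C.exact_i t (m + 1) m rfl _ h1
  exact ⟨z, by rw [Couple.d_apply, hz]⟩

end Vale.Agent.P257.H820
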