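import Vale.Agent.P257.H820.Phi

/-!
# P257 (helper712): the shift of the tower by an even number

`exists_evenShift` (piece P2 of the `k = 1` step): a class `y` of the tower of `V` in filtration
`r + 1` gives a class of the tower of `V ⊗ 𝟙⟦M⟧`, `M` even.
-/

open CategoryTheory MonoidalCategory Limits Pretriangulated MonObj

universe v u

set_option linter.unusedSectionVars false

namespace Vale.Agent.P257.H820

open Vale.Agent.P251.T Vale.Agent.P251.S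

section Tower

variable {T : Type u} [Category.{v} T] [Preadditive T] [HasZeroObject T] [HasShift T ℤ]
  [∀ n : ℤ, (shiftFunctor T n).Additive] [Pretriangulated T] (X X' : Tow T) (P : T)

/-- A map of degree `k` between towers, on `D`. -/
noncomputable def mu0MapH (k : ℤ) (ξ : ∀ s, (X.J s)⟦k⟧ ⟶ X'.J s) (s : ℕ) (n : ℤ) :
    (P⟦n + (s : ℤ)⟧ ⟶ X.J s) →+ (P⟦n + k + (s : ℤ)⟧ ⟶ X'.J s) :=
  AddMonoidHom.mk' (fun y => sh (P := P) (n + (s : ℤ)) k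
    (n + k + (s : ℤ)) (by ring) y ≫ ξ s)
    (by intro x y; rw [map_add, Preadditive.add_comp])

/-- A map of degree `k` between towers, on `D`. -/
noncomputable def mu0Map (k : ℤ) (ξ : ∀ s, (X.J s)⟦k⟧ ⟶ X'.J s) (s : ℕ) (n : ℤ) :
    (X.couple P).D s n →+ (X'.couple P).D s (n + k) :=
  mu0MapH X X' P k ξ s n

variable {X X'}

lemma i_mu0Map (k : ℤ) (ξ : ∀ s, (X.J s)⟦k⟧ ⟶ X'.J s)
    (hξ : ∀ s, ξ (s + 1) ≫ X'.c s =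
      (X.c s)⟦k⟧' ≫ (shiftFunctorComm T (1 : ℤ) k).hom.app (X.J s) ≫ (ξ s)⟦(1 : ℤ)⟧')
    (s : ℕ) (n : ℤ) (y : (X.couple P).D (s + 1) n) :
    (X'.couple P).i s (n + k) (mu0Map X X' P k ξ (s + 1) n y) =
      mu0Map X X' P k ξ s n ((X.couple P).i s n y) := by
  have key : ∀ y : P⟦n + ((s + 1 : ℕ) : ℤ)⟧ ⟶ X.J (s + 1),
      (sh (n + k + (s : ℤ)) 1 (n + k + ((s + 1 : ℕ) : ℤ)) (by push_cast; ring)).symm
        ((sh (P := P) (n + ((s + 1 : ℕ) : ℤ)) k (n + k + ((s + 1 : ℕ) : ℤ)) (by ring) y ≫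
          ξ (s + 1)) ≫ X'.c s) =
      sh (P := P) (n + (s : ℤ)) k (n + k + (s : ℤ)) (by ring)
        ((sh (n + (s : ℤ)) 1 (n + ((s + 1 : ℕ) : ℤ)) (by push_cast; ring)).symm (y ≫ X.c s)) ≫
          ξ s := by
    intro y
    rw [AddEquiv.symm_apply_eq, sh_comp, Category.assoc, hξ]
    have h1 : n + (s : ℤ) + 1 = n + ((s + 1 : ℕ) : ℤ) := by push_cast; ring
    have h2 : n + ((s + 1 : ℕ) : ℤ) + k = n + k + ((s + 1 : ℕ) : ℤ) := by ring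
    have h3 : n + (s : ℤ) + k = n + k + (s : ℤ) := by ring
    have h4 : n + k + (s : ℤ) + 1 = n + k + ((s + 1 : ℕ) : ℤ) := by push_cast; ring
    have key := sh_sh_comm (P := P) (n + (s : ℤ)) 1 k _ _ _ h1 h2 h3 h4
      ((sh (n + (s : ℤ)) 1 _ h1).symm (y ≫ X.c s))
    rw [AddEquiv.apply_symm_apply, sh_comp, Category.assoc] at key
    rw [← key]
    simp only [Category.assoc]
  exact key y

lemma proj_mu0Map (k : ℤ) (ξ : ∀ s, (X.J s)⟦k⟧ ⟶ X'.J s)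
    (hξ : ∀ s, ξ (s + 1) ≫ X'.c s =
      (X.c s)⟦k⟧' ≫ (shiftFunctorComm T (1 : ℤ) k).hom.app (X.J s) ≫ (ξ s)⟦(1 : ℤ)⟧')
    (n : ℤ) {b a : ℕ} (h : b ≤ a) (y : (X.couple P).D a n) :
    (X'.couple P).proj (n + k) h (mu0Map X X' P k ξ a n y) =
      mu0Map X X' P k ξ b n ((X.couple P).proj n h y) := by
  induction a, h using Nat.le_induction with
  | base => rw [Couple.proj_self, Couple.proj_self]
  | succ a h ih =>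
    rw [Couple.proj_succ _ _ h, i_mu0Map P k ξ hξ, ih, Couple.proj_succ _ _ h]

end Tower

variable {T : Type u} [Category.{v} T] [Preadditive T] [HasZeroObject T] [HasShift T ℤ]
  [∀ n : ℤ, (shiftFunctor T n).Additive] [Pretriangulated T] [MonoidalCategory T]
  [SymmetricCategory T] [TensorTriangulated T]

lemma tensorSph_unit (k : ℤ) : (tensorSph k (𝟙_ T)).hom = (λ_ ((𝟙_ T)⟦k⟧)).hom := by
  rw [← csh_leftUnitor, unitors_equal]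
  rfl

/-- The unit of `V` and the shift. -/
lemma shift_tensorSph_inv {V : T} (i : 𝟙_ T ⟶ V) (k : ℤ) :
    i⟦k⟧' ≫ (tensorSph k V).inv = uN i ((𝟙_ T)⟦k⟧) := by
  rw [Iso.comp_inv_eq, uN, Category.assoc, tensorSph_naturality, tensorSph_unit,
    Iso.inv_hom_id_assoc]

variable {R : T} [MonObj R]

/-- The shift of the tower by an even number. -/
theorem exists_evenShift (U : UnitCof R) {r : ℕ} {V : T} (i : 𝟙_ T ⟶ V) {n M N m me : ℤ}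
    (n' : ℕ) (hM : M = 2 * (n' : ℤ)) (hN : n + M = N) (hm : n = m + 1) (hme : N = me + 1)
    (v0 : (𝟙_ T)⟦n⟧ ⟶ R ⊗ 𝟙_ T)
    (y : (𝟙_ T)⟦m + ((r + 1 : ℕ) : ℤ)⟧ ⟶ U.cobar.B (r + 1) V)
    (hy : ((U.tow V).couple (𝟙_ T)).proj m (Nat.le_add_left 1 r) y =
      ((U.tow V).couple (𝟙_ T)).k 0 n m hm
        (((U.tow V).eE (𝟙_ T) (show n + ((0 : ℕ) : ℤ) = n by simp)).symm (v0 ≫ (R ◁ i))))
    (θ : (𝟙_ T)⟦m + ((r + 1 : ℕ) : ℤ)⟧ ⟶ U.cobar.Q (r + 2) (𝟙_ T))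
    (hθ : y ≫ unitMap R (U.cobar.B (r + 1) V) =
      θ ≫ U.cobar.Qm (r + 2) i ≫ U.cobar.q (r + 1) V)
    (hsh : m + ((r + 1 : ℕ) : ℤ) + M = me + ((r + 1 : ℕ) : ℤ)) :
    ∃ cx : (𝟙_ T)⟦me + ((r + 1 : ℕ) : ℤ)⟧ ⟶ U.cobar.B (r + 1) (V ⊗ (𝟙_ T)⟦M⟧),
      ((U.tow (V ⊗ (𝟙_ T)⟦M⟧)).couple (𝟙_ T)).proj me (Nat.le_add_left 1 r) cx =
        ((U.tow (V ⊗ (𝟙_ T)⟦M⟧)).couple (𝟙_ T)).k 0 N me hme
          (((U.tow (V ⊗ (𝟙_ T)⟦M⟧)).eE (𝟙_ T) (show N + ((0 : ℕ) : ℤ) = N by simp)).symm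
            (oc hN v0 (uN i ((𝟙_ T)⟦M⟧)))) ∧
      cx ≫ unitMap R (U.cobar.B (r + 1) (V ⊗ (𝟙_ T)⟦M⟧)) =
        (sh (m + ((r + 1 : ℕ) : ℤ)) M (me + ((r + 1 : ℕ) : ℤ)) hsh θ ≫
          U.κQ M (r + 2) (𝟙_ T) ≫ U.cobar.Qm (r + 2) (uN i ((𝟙_ T)⟦M⟧))) ≫
            U.cobar.q (r + 1) (V ⊗ (𝟙_ T)⟦M⟧) := by
  obtain rfl : me = m + M := by omega
  let X := U.tow V
  let X' := U.tow (V ⊗ (𝟙_ T)⟦M⟧)
  let g : V⟦M⟧ ⟶ V ⊗ (𝟙_ T)⟦M⟧ := (tensorSph M V).inv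
  let ξ : ∀ s, (X.J s)⟦M⟧ ⟶ X'.J s := fun s => U.κB M s V ≫ U.cobar.Bm s g
  have hξ : ∀ s, ξ (s + 1) ≫ X'.c s =
      (X.c s)⟦M⟧' ≫ (shiftFunctorComm T (1 : ℤ) M).hom.app (X.J s) ≫ (ξ s)⟦(1 : ℤ)⟧' := by
    intro s
    subst hM
    have h1 := U.bd_naturality s g
    have h2 := U.κB_bd n' s V
    change (U.κB (2 * (n' : ℤ)) (s + 1) V ≫ U.cobar.Bm (s + 1) g) ≫ U.bd s (V ⊗ _) =
      (U.bd s V)⟦2 * (n' : ℤ)⟧' ≫ _ ≫ (U.κB (2 * (n' : ℤ)) s V ≫ U.cobar.Bm s g)⟦(1 : ℤ)⟧'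
    rw [Functor.map_comp, Category.assoc]
    refine (congrArg _ h1).trans ?_
    exact (reassoc_of% h2) _
  refine ⟨mu0Map X X' (𝟙_ T) M ξ (r + 1) m y, ?_, ?_⟩
  · have h1 := proj_mu0Map (𝟙_ T) M ξ hξ m (Nat.le_add_left 1 r) y
    refine h1.trans ?_
    refine (congrArg (mu0Map X X' (𝟙_ T) M ξ 1 m) hy).trans ?_
    apply (X'.eD (𝟙_ T) (show m + M + ((0 + 1 : ℕ) : ℤ) = N by push_cast; omega)).injective
    have e1 : X'.eD (𝟙_ T) (show m + M + ((0 + 1 : ℕ) : ℤ) = N by push_cast; omega)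
        ((X'.couple (𝟙_ T)).k 0 N (m + M) hme
          ((X'.eE (𝟙_ T) (show N + ((0 : ℕ) : ℤ) = N by simp)).symm
            (oc hN v0 (uN i ((𝟙_ T)⟦M⟧))))) = oc hN v0 (uN i ((𝟙_ T)⟦M⟧)) ≫ X'.b 0 :=
      (X'.eD_k (𝟙_ T) hme (show N + ((0 : ℕ) : ℤ) = N by simp) _ _).trans
        (congrArg (· ≫ X'.b 0) (AddEquiv.apply_symm_apply _ _))
    refine Eq.trans ?_ e1.symm
    have h3 : X'.eD (𝟙_ T) (show m + M + ((0 + 1 : ℕ) : ℤ) = N by push_cast; omega)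
        (mu0Map X X' (𝟙_ T) M ξ 1 m ((X.couple (𝟙_ T)).k 0 n m hm
          ((X.eE (𝟙_ T) (show n + ((0 : ℕ) : ℤ) = n by simp)).symm (v0 ≫ (R ◁ i))))) =
        sh n M N hN (X.eD (𝟙_ T) (show m + ((0 + 1 : ℕ) : ℤ) = n by push_cast; omega)
          ((X.couple (𝟙_ T)).k 0 n m hm
          ((X.eE (𝟙_ T) (show n + ((0 : ℕ) : ℤ) = n by simp)).symm (v0 ≫ (R ◁ i))))) ≫ ξ 1 := by
      generalize (X.couple (𝟙_ T)).k 0 n m hm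
          ((X.eE (𝟙_ T) (show n + ((0 : ℕ) : ℤ) = n by simp)).symm (v0 ≫ (R ◁ i))) = z
      have key : ∀ (z : (𝟙_ T)⟦m + ((0 + 1 : ℕ) : ℤ)⟧ ⟶ X.J 1) (t t' t'' : ℤ)
          (e₁ : m + ((0 + 1 : ℕ) : ℤ) = t) (e₂ : t + M = t') (e₃ : t'' = t')
          (e₄ : m + ((0 + 1 : ℕ) : ℤ) + M = t''),
          cst (𝟙_ T) (X'.J 1) e₃ (sh (m + ((0 + 1 : ℕ) : ℤ)) M t'' e₄ z ≫ ξ 1) =
            sh t M t' e₂ (cst (𝟙_ T) (X.J 1) e₁ z) ≫ ξ 1 := by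
        rintro z t t' t'' rfl e₂ rfl e₄
        rfl
      exact key z n N _ _ hN _ (by push_cast; ring)
    refine h3.trans ?_
    have e2 : X.eD (𝟙_ T) (show m + ((0 + 1 : ℕ) : ℤ) = n by push_cast; omega)
        ((X.couple (𝟙_ T)).k 0 n m hm
          ((X.eE (𝟙_ T) (show n + ((0 : ℕ) : ℤ) = n by simp)).symm (v0 ≫ (R ◁ i)))) =
        (v0 ≫ (R ◁ i)) ≫ X.b 0 :=
      (X.eD_k (𝟙_ T) hm (show n + ((0 : ℕ) : ℤ) = n by simp) _ _).trans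
        (congrArg (· ≫ X.b 0) (AddEquiv.apply_symm_apply _ _))
    refine (congrArg (fun z => sh n M N hN z ≫ ξ 1) e2).trans ?_
    have h6 : ξ 1 = (csh U.J M V).inv ≫ (U.J ◁ g) := by
      change (𝟙 _ ≫ (csh U.J M V).inv) ≫ _ = _
      rw [Category.id_comp]
      rfl
    have h10 : sh n M N hN ((v0 ≫ (R ◁ i)) ≫ (U.ρ ▷ V)) ≫ ((csh U.J M V).inv ≫ (U.J ◁ g)) =
        oc hN v0 (uN i ((𝟙_ T)⟦M⟧)) ≫ (U.ρ ▷ (V ⊗ (𝟙_ T)⟦M⟧)) := by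
      rw [sh_comp, sh_comp, oc]
      have h7 := csh_inv_tlMap U.ρ M V
      have h8 := csh_inv_nat R M i
      have h9 : (U.ρ ▷ (V⟦M⟧)) ≫ (U.J ◁ g) = (R ◁ g) ≫ (U.ρ ▷ (V ⊗ (𝟙_ T)⟦M⟧)) :=
        (whisker_exchange _ _).symm
      simp only [Category.assoc]
      refine (congrArg (fun z => sh n M N hN v0 ≫ (R ◁ i)⟦M⟧' ≫ z)
        ((reassoc_of% h7) (U.J ◁ g))).trans ?_
      rw [h9, reassoc_of% h8, ← MonoidalCategory.whiskerLeft_comp_assoc, shift_tensorSph_inv]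
    exact (congrArg (fun z => sh n M N hN ((v0 ≫ (R ◁ i)) ≫ (U.ρ ▷ V)) ≫ z) h6).trans h10
  · have h1 : mu0Map X X' (𝟙_ T) M ξ (r + 1) m y =
        sh (m + ((r + 1 : ℕ) : ℤ)) M (m + M + ((r + 1 : ℕ) : ℤ)) hsh y ≫
          U.κB M (r + 1) V ≫ U.cobar.Bm (r + 1) g := rfl
    refine (congrArg (· ≫ unitMap R (U.cobar.B (r + 1) (V ⊗ (𝟙_ T)⟦M⟧))) h1).trans ?_
    have h2 : U.κB M (r + 1) V ≫ unitMap R (U.cobar.B (r + 1) (V⟦M⟧)) =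
        (unitMap R (U.cobar.B (r + 1) V))⟦M⟧' ≫ (csh R M (U.cobar.B (r + 1) V)).inv ≫
          (R ◁ U.κB M (r + 1) V) := by
      rw [← unitMap_csh, Category.assoc, Iso.hom_inv_id_assoc, unitMap_nat]
    have h3 := U.κQ_q M (r + 1) V
    have h4 := U.κQ_nat M (r + 2) i
    have h5 := U.cobar.q_naturality (r + 1) g
    have h6 : sh (m + ((r + 1 : ℕ) : ℤ)) M (m + M + ((r + 1 : ℕ) : ℤ)) hsh y ≫
        (unitMap R (U.cobar.B (r + 1) V))⟦M⟧' =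
        sh (m + ((r + 1 : ℕ) : ℤ)) M (m + M + ((r + 1 : ℕ) : ℤ)) hsh θ ≫
          (U.cobar.Qm (r + 2) i)⟦M⟧' ≫ (U.cobar.q (r + 1) V)⟦M⟧' := by
      rw [← sh_comp, hθ, sh_comp, Functor.map_comp]
    simp only [Category.assoc]
    rw [unitMap_nat, reassoc_of% h2, reassoc_of% h6, ← reassoc_of% h3, reassoc_of% h4]
    have h7 : U.cobar.q (r + 1) (V⟦M⟧) ≫ (R ◁ U.cobar.Bm (r + 1) g) =
        U.cobar.Qm (r + 2) g ≫ U.cobar.q (r + 1) (V ⊗ (𝟙_ T)⟦M⟧) := h5.symm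
    rw [h7, ← CobarData.Qm_comp_assoc, shift_tensorSph_inv]

end Vale.Agent.P257.H820
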