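import Vale.Agent.P257.H820.IBt

/-!
# P257 (helper712): the iterates of `I ⊗ -`, outermost factor; moving a factor in

* `ibo I s W : I ⊗ IB I s W ≅ IB I (s + 1) W`;
* `IBin I X s W : X ⊗ IB I s W ⟶ IB I s (X ⊗ W)`, the inverse of `IBmv`;
* `sw_shR`, `sw_bI`: the exchange of factors and the boundary map.
-/

open CategoryTheory MonoidalCategory Limits Pretriangulated MonObj

universe v u

set_option linter.unusedSectionVars false

namespace Vale.Agent.P257.H712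

open Vale.Agent.P251.T Vale.Agent.P251.S Vale.Agent.P257.H820

section

variable {T : Type u} [Category.{v} T] [MonoidalCategory T]

/-- `I ⊗ IB I s W ≅ IB I (s + 1) W`. -/
def ibo (I : T) : ∀ (s : ℕ) (W : T), I ⊗ IB I s W ≅ IB I (s + 1) W
  | 0, W => Iso.refl (I ⊗ W)
  | s + 1, W => ibo I s (I ⊗ W)

lemma ibo_succ (I : T) (s : ℕ) (W : T) : ibo I (s + 1) W = ibo I s (I ⊗ W) := rfl

@[reassoc]
lemma ibo_nat (I : T) (s : ℕ) {W W' : T} (f : W ⟶ W') :
    (I ◁ IBm I s f) ≫ (ibo I s W').hom = (ibo I s W).hom ≫ IBm I (s + 1) f := by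
  induction s generalizing W W' with
  | zero =>
    change (I ◁ f) ≫ 𝟙 _ = 𝟙 _ ≫ (I ◁ f)
    rw [Category.comp_id, Category.id_comp]
  | succ s ih => exact ih (I ◁ f)

@[reassoc]
lemma IBcol_nat {I : T} (ε : I ⟶ 𝟙_ T) (s : ℕ) {W W' : T} (f : W ⟶ W') :
    IBm I s f ≫ IBcol ε s W' = IBcol ε s W ≫ f := by
  induction s generalizing W W' with
  | zero =>
    change f ≫ 𝟙 _ = 𝟙 _ ≫ f
    rw [Category.comp_id, Category.id_comp]
  | succ s ih =>
    rw [IBcol_succ, IBcol_succ, IBm_succ, ← Category.assoc, ih, Category.assoc, ep_nat,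
      Category.assoc]

@[reassoc]
lemma ibo_col {I : T} (ε : I ⟶ 𝟙_ T) (s : ℕ) (W : T) :
    (ibo I s W).hom ≫ IBcol ε (s + 1) W = ep ε (IB I s W) ≫ IBcol ε s W := by
  induction s generalizing W with
  | zero =>
    change 𝟙 _ ≫ 𝟙 _ ≫ ep ε W = ep ε W ≫ 𝟙 _
    simp
  | succ s ih =>
    rw [ibo_succ, IBcol_succ ε (s + 1), reassoc_of% (ih (I ⊗ W)), IBcol_succ]

end

section

variable {T : Type u} [Category.{v} T] [MonoidalCategory T] [SymmetricCategory T]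

/-- Moving a factor in: `X ⊗ (I^{⊗ s} ⊗ W) ⟶ I^{⊗ s} ⊗ (X ⊗ W)`. -/
def IBin (I X : T) : ∀ (s : ℕ) (W : T), X ⊗ IB I s W ⟶ IB I s (X ⊗ W)
  | 0, _ => 𝟙 _
  | s + 1, W => IBin I X s (I ⊗ W) ≫ IBm I s (sw X I W)

lemma IBmv_succ (I X : T) (s : ℕ) (W : T) :
    IBmv I X (s + 1) W = IBm I s (sw I X W) ≫ IBmv I X s (I ⊗ W) := rfl

lemma IBin_succ (I X : T) (s : ℕ) (W : T) :
    IBin I X (s + 1) W = IBin I X s (I ⊗ W) ≫ IBm I s (sw X I W) := rfl

@[reassoc (attr := simp)]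
lemma IBin_mv (I X : T) (s : ℕ) (W : T) : IBin I X s W ≫ IBmv I X s W = 𝟙 _ := by
  induction s generalizing W with
  | zero => exact Category.id_comp _
  | succ s ih =>
    rw [IBin_succ, IBmv_succ, Category.assoc, ← IBm_comp_assoc, sw_sw, IBm_id,
      Category.id_comp, ih]

@[reassoc]
lemma IBin_nat (I X : T) (s : ℕ) {W W' : T} (f : W ⟶ W') :
    (X ◁ IBm I s f) ≫ IBin I X s W' = IBin I X s W ≫ IBm I s (X ◁ f) := by
  induction s generalizing W W' with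
  | zero => exact (Category.comp_id _).trans (Category.id_comp _).symm
  | succ s ih =>
    rw [IBin_succ, IBin_succ, Category.assoc, IBm_succ, IBm_succ, ← Category.assoc, ih,
      Category.assoc, ← IBm_comp, ← IBm_comp, sw_nat_right]

@[reassoc]
lemma IBin_col {I : T} (ε : I ⟶ 𝟙_ T) (X : T) (s : ℕ) (W : T) :
    IBin I X s W ≫ IBcol ε s (X ⊗ W) = X ◁ IBcol ε s W := by
  induction s generalizing W with
  | zero =>
    change 𝟙 _ ≫ 𝟙 _ = X ◁ 𝟙 W
    simp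
  | succ s ih =>
    rw [IBin_succ, IBcol_succ, IBcol_succ, Category.assoc, IBcol_nat_assoc, reassoc_of% ih,
      sw_ep, ← MonoidalCategory.whiskerLeft_comp]

@[reassoc]
lemma uN_IBin {V : T} (i : 𝟙_ T ⟶ V) (I : T) (s : ℕ) (W : T) :
    uN i (IB I s W) ≫ IBin I V s W = IBm I s (uN i W) := by
  induction s generalizing W with
  | zero => exact Category.comp_id _
  | succ s ih =>
    rw [IBin_succ, reassoc_of% (ih (I ⊗ W)), ← IBm_comp, uN_sw, IBm_succ]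

/-- Moving a factor out and the outermost factor. -/
@[reassoc]
lemma ibo_mv (I X : T) (s : ℕ) (W : T) :
    (ibo I s (X ⊗ W)).hom ≫ IBmv I X (s + 1) W =
      (I ◁ IBmv I X s W) ≫ sw I X (IB I s W) ≫ (X ◁ (ibo I s W).hom) := by
  induction s generalizing W with
  | zero =>
    change 𝟙 _ ≫ sw I X W ≫ 𝟙 _ = (I ◁ 𝟙 _) ≫ sw I X W ≫ (X ◁ 𝟙 _)
    simp
  | succ s ih =>
    rw [ibo_succ, IBmv_succ I X (s + 1), ← ibo_nat_assoc, ih, IBmv_succ, ibo_succ,
      MonoidalCategory.whiskerLeft_comp, Category.assoc]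

end

section

variable {T : Type u} [Category.{v} T] [Preadditive T] [HasZeroObject T] [HasShift T ℤ]
  [∀ n : ℤ, (shiftFunctor T n).Additive] [Pretriangulated T] [MonoidalCategory T]
  [SymmetricCategory T] [TensorTriangulated T]

omit [Preadditive T] [HasZeroObject T] [HasShift T ℤ] [∀ n : ℤ, (shiftFunctor T n).Additive]
  [Pretriangulated T] [TensorTriangulated T] in
@[reassoc]
lemma sw_braid (Z X W : T) :
    sw Z X W ≫ (X ◁ (β_ Z W).hom) = (β_ Z (X ⊗ W)).hom ≫ (α_ X W Z).hom := by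
  rw [sw]
  simp only [Category.assoc]
  rw [← BraidedCategory.hexagon_forward, Iso.inv_hom_id_assoc]

/-- The exchange of factors and the shift of the left factor. -/
@[reassoc]
lemma sw_shR (Y X W : T) :
    sw (Y⟦(1 : ℤ)⟧) X W ≫ (X ◁ (shR Y W).hom) ≫ (csh X 1 (Y ⊗ W)).hom =
      (shR Y (X ⊗ W)).hom ≫ (sw Y X W)⟦(1 : ℤ)⟧' := by
  have h1 := csh_associator X W 1 Y
  have h2 : (β_ (X ⊗ W) Y).hom ≫ sw Y X W = (α_ X W Y).hom ≫ (X ◁ (β_ W Y).hom) := by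
    have h3 := sw_braid Y X W
    have h4 : sw Y X W = (β_ Y (X ⊗ W)).hom ≫ (α_ X W Y).hom ≫ (X ◁ (β_ W Y).hom) := by
      rw [← reassoc_of% h3, ← MonoidalCategory.whiskerLeft_comp, SymmetricCategory.symmetry]
      simp
    rw [h4, SymmetricCategory.symmetry_assoc]
  rw [shR_hom, shR_hom, MonoidalCategory.whiskerLeft_comp, MonoidalCategory.whiskerLeft_comp]
  simp only [Category.assoc]
  rw [csh_nat, sw_braid_assoc, ← reassoc_of% h1, ← Functor.map_comp, ← Functor.map_comp, h2]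

@[reassoc]
lemma sw_shR' (X Y W : T) :
    sw X (Y⟦(1 : ℤ)⟧) W ≫ (shR Y (X ⊗ W)).hom =
      (X ◁ (shR Y W).hom) ≫ (csh X 1 (Y ⊗ W)).hom ≫ (sw X Y W)⟦(1 : ℤ)⟧' := by
  have h := congrArg (fun f => sw X (Y⟦(1 : ℤ)⟧) W ≫ f ≫ (sw X Y W)⟦(1 : ℤ)⟧') (sw_shR Y X W)
  simp only [Category.assoc, sw_sw_assoc, ← Functor.map_comp, sw_sw] at h
  rw [h]
  simp

variable {R : T} [MonObj R] (F : UFib R)

/-- The exchange of factors and the boundary map. -/
@[reassoc]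
lemma sw_bI (V A : T) : sw V R A ≫ F.bI (V ⊗ A) =
    (V ◁ F.bI A) ≫ (csh V 1 (F.I ⊗ A)).hom ≫ (sw V F.I A)⟦(1 : ℤ)⟧' := by
  rw [UFib.bI, UFib.bI, ← sw_nat_mid_assoc, sw_shR', MonoidalCategory.whiskerLeft_comp_assoc]

/-- The unit of `V` and the shift. -/
@[reassoc]
lemma uN_csh {V : T} (i : 𝟙_ T ⟶ V) (k : ℤ) (Y : T) :
    uN i (Y⟦k⟧) ≫ (csh V k Y).hom = (uN i Y)⟦k⟧' := by
  rw [uN, uN, Category.assoc, ← csh_tlMap, Functor.map_comp]
  rw [← cancel_epi (λ_ (Y⟦k⟧)).hom, Iso.hom_inv_id_assoc, ← csh_leftUnitor_assoc,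
    ← Functor.map_comp_assoc, Iso.hom_inv_id, CategoryTheory.Functor.map_id, Category.id_comp]

@[reassoc (attr := simp)]
lemma bI_ep (W : T) : F.bI W ≫ (ep F.ε W)⟦(1 : ℤ)⟧' = 0 :=
  comp_distTriang_mor_zero₃₁ _ (F.dist W)

end

end Vale.Agent.P257.H712
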