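import Vale.Agent.P257.H712.IBo

/-!
# P257 (helper712): the Leibniz rule with coefficients

`NPack.leibnizV`: the Leibniz rule for classes of the tower with coefficients in `V` (with a unit
`i : 𝟙 ⟶ V`) and in `A` (with an action `a : V ⊗ A ⟶ A`).
-/

open CategoryTheory MonoidalCategory Limits Pretriangulated MonObj

universe v u

set_option linter.unusedSectionVars false

namespace Vale.Agent.P257.H820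

open Vale.Agent.P251.T Vale.Agent.P251.S Vale.Agent.P257.H712

variable {T : Type u} [Category.{v} T] [Preadditive T] [HasZeroObject T] [HasShift T ℤ]
  [∀ n : ℤ, (shiftFunctor T n).Additive] [Pretriangulated T] [MonoidalCategory T]
  [SymmetricCategory T] [TensorTriangulated T]

variable {R : T} [MonObj R]

namespace NPack

variable {F : UFib R} {q : ℕ} (P : NPack F q)

/-- `I ⊗ (K ⊗ W) ≅ (I^{⊗ (q + 2)} ⊗ W)⟦1⟧`. -/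
noncomputable def Θ (W : T) : F.I ⊗ (P.K ⊗ W) ≅ (IB F.I (q + 2) W)⟦(1 : ℤ)⟧ :=
  whiskerLeftIso F.I (P.θ W) ≪≫ csh F.I 1 (IB F.I (q + 1) W) ≪≫
    (shiftFunctor T (1 : ℤ)).mapIso (ibo F.I (q + 1) W)

lemma Θ_hom (W : T) : (P.Θ W).hom = (F.I ◁ (P.θ W).hom) ≫ (csh F.I 1 (IB F.I (q + 1) W)).hom ≫
    ((ibo F.I (q + 1) W).hom)⟦(1 : ℤ)⟧' := rfl

@[reassoc]
lemma Θ_nat {W W' : T} (f : W ⟶ W') :
    (F.I ◁ (P.K ◁ f)) ≫ (P.Θ W').hom = (P.Θ W).hom ≫ (IBm F.I (q + 2) f)⟦(1 : ℤ)⟧' := by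
  rw [Θ_hom, Θ_hom, ← MonoidalCategory.whiskerLeft_comp_assoc, P.θ_nat,
    MonoidalCategory.whiskerLeft_comp_assoc, csh_nat_assoc, ← Functor.map_comp, ibo_nat]
  simp only [Category.assoc, Functor.map_comp]

/-- The outermost collapse. -/
@[reassoc]
lemma Θ_col (W : T) : (P.Θ W).hom ≫ (IBcol F.ε (q + 1) (F.I ⊗ W))⟦(1 : ℤ)⟧' =
    ep F.ε (P.K ⊗ W) ≫ (P.θ W).hom ≫ (IBcol F.ε q (F.I ⊗ W))⟦(1 : ℤ)⟧' := by
  have h := ibo_col F.ε q (F.I ⊗ W)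
  change (ibo F.I (q + 1) W).hom ≫ IBcol F.ε (q + 1) (F.I ⊗ W) = _ at h
  rw [Θ_hom, ← ep_nat_assoc, ← csh_ep_assoc]
  simp only [Category.assoc, ← Functor.map_comp]
  rw [h]

/-- Moving a factor out. -/
@[reassoc]
lemma Θ_sw (X W : T) : (F.I ◁ sw P.K X W) ≫ sw F.I X (P.K ⊗ W) ≫ (X ◁ (P.Θ W).hom) ≫
    (csh X 1 (IB F.I (q + 2) W)).hom =
      (P.Θ (X ⊗ W)).hom ≫ (IBmv F.I X (q + 2) W)⟦(1 : ℤ)⟧' := by
  rw [Θ_hom, Θ_hom, MonoidalCategory.whiskerLeft_comp, MonoidalCategory.whiskerLeft_comp]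
  simp only [Category.assoc]
  rw [csh_nat, ← sw_nat_right_assoc, sw_csh_assoc, ← MonoidalCategory.whiskerLeft_comp_assoc,
    ← MonoidalCategory.whiskerLeft_comp_assoc, Category.assoc, P.θ_sw,
    MonoidalCategory.whiskerLeft_comp_assoc, csh_nat_assoc]
  simp only [← Functor.map_comp]
  rw [ibo_mv]

variable {V A X Q : T}

/-- The extension of a map `X ⟶ R ⊗ A` to `V ⊗ X ⟶ R ⊗ A`. -/
def extV (a : V ⊗ A ⟶ A) (f : X ⟶ R ⊗ A) : V ⊗ X ⟶ R ⊗ A :=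
  (V ◁ f) ≫ sw V R A ≫ (R ◁ a)

/-- The same for the boundary. -/
noncomputable def extB (F : UFib R) (s : ℕ) (a : V ⊗ A ⟶ A) (cf : X ⟶ (IB F.I s A)⟦(1 : ℤ)⟧) :
    V ⊗ X ⟶ (IB F.I s A)⟦(1 : ℤ)⟧ :=
  (V ◁ cf) ≫ (csh V 1 (IB F.I s A)).hom ≫ (IBin F.I V s A ≫ IBm F.I s a)⟦(1 : ℤ)⟧'

lemma uN_extV (i : 𝟙_ T ⟶ V) (a : V ⊗ A ⟶ A) (ha : uN i A ≫ a = 𝟙 A) (f : X ⟶ R ⊗ A) :
    uN i X ≫ extV a f = f := by
  rw [extV, ← uN_nat_assoc, uN_sw_assoc, ← MonoidalCategory.whiskerLeft_comp, ha,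
    MonoidalCategory.whiskerLeft_id, Category.comp_id]

lemma uN_extB (i : 𝟙_ T ⟶ V) (s : ℕ) (a : V ⊗ A ⟶ A) (ha : uN i A ≫ a = 𝟙 A)
    (cf : X ⟶ (IB F.I s A)⟦(1 : ℤ)⟧) : uN i X ≫ extB F s a cf = cf := by
  rw [extB, ← uN_nat_assoc, uN_csh_assoc, ← Functor.map_comp, uN_IBin_assoc, ← IBm_comp, ha,
    IBm_id, CategoryTheory.Functor.map_id, Category.comp_id]

lemma extV_bI (q : ℕ) (a : V ⊗ A ⟶ A) (f : X ⟶ R ⊗ A) (cf : X ⟶ (IB F.I (q + 2) A)⟦(1 : ℤ)⟧)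
    (hf : f ≫ F.bI A = cf ≫ (IBcol F.ε (q + 1) (F.I ⊗ A))⟦(1 : ℤ)⟧') :
    extV a f ≫ F.bI A = extB F (q + 2) a cf ≫ (IBcol F.ε (q + 1) (F.I ⊗ A))⟦(1 : ℤ)⟧' := by
  have h1 : (IBin F.I V (q + 2) A ≫ IBm F.I (q + 2) a) ≫ IBcol F.ε (q + 1) (F.I ⊗ A) =
      (V ◁ IBcol F.ε (q + 1) (F.I ⊗ A)) ≫ sw V F.I A ≫ (F.I ◁ a) := by
    have h2 : IBm F.I (q + 2) a ≫ IBcol F.ε (q + 1) (F.I ⊗ A) =
        IBcol F.ε (q + 1) (F.I ⊗ (V ⊗ A)) ≫ (F.I ◁ a) := IBcol_nat F.ε (q + 1) (F.I ◁ a)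
    have h3 : IBin F.I V (q + 2) A ≫ IBcol F.ε (q + 1) (F.I ⊗ (V ⊗ A)) =
        (V ◁ IBcol F.ε (q + 1) (F.I ⊗ A)) ≫ sw V F.I A := by
      rw [IBin_succ, Category.assoc, IBcol_nat, IBin_col_assoc]
    rw [Category.assoc, h2, reassoc_of% h3]
  rw [extV, extB]
  simp only [Category.assoc, ← Functor.map_comp]
  have h1' := h1
  rw [Category.assoc] at h1'
  rw [h1', F.bI_nat, sw_bI_assoc, ← MonoidalCategory.whiskerLeft_comp_assoc, hf,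
    MonoidalCategory.whiskerLeft_comp_assoc, csh_nat_assoc]
  simp only [← Functor.map_comp]

/-- Lifting to `N`. -/
lemma exists_lift_Θ {Q W : T} (f : Q ⟶ R ⊗ W) (c : Q ⟶ (IB F.I (q + 2) W)⟦(1 : ℤ)⟧)
    (h : f ≫ F.bI W = c ≫ (IBcol F.ε (q + 1) (F.I ⊗ W))⟦(1 : ℤ)⟧') :
    ∃ y : Q ⟶ P.N ⊗ W, y ≫ (P.r ▷ W) = f ∧
      y ≫ (P.pr ▷ W) = (c ≫ (P.Θ W).inv) ≫ ep F.ε (P.K ⊗ W) := by
  refine P.lift f ((c ≫ (P.Θ W).inv) ≫ ep F.ε (P.K ⊗ W)) ?_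
  rw [h, Category.assoc, ← P.Θ_col, Category.assoc, Iso.inv_hom_id_assoc]

include P in
/-- **The Leibniz rule with coefficients.** -/
theorem leibnizV {V A X Q : T} (i : 𝟙_ T ⟶ V)
    (a : V ⊗ A ⟶ A) (ha : uN i A ≫ a = 𝟙 A)
    (f : X ⟶ R ⊗ A) (cf : X ⟶ (IB F.I (q + 2) A)⟦(1 : ℤ)⟧)
    (hf : f ≫ F.bI A = cf ≫ (IBcol F.ε (q + 1) (F.I ⊗ A))⟦(1 : ℤ)⟧')
    (x : Q ⟶ R ⊗ X) (cx : Q ⟶ (IB F.I (q + 2) (V ⊗ X))⟦(1 : ℤ)⟧)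
    (hx : (x ≫ (R ◁ uN i X)) ≫ F.bI (V ⊗ X) =
      cx ≫ (IBcol F.ε (q + 1) (F.I ⊗ (V ⊗ X)))⟦(1 : ℤ)⟧') :
    ∃ e : Q ⟶ (IB F.I (q + 2) A)⟦(1 : ℤ)⟧,
      e ≫ (IBcol F.ε (q + 1) (F.I ⊗ A))⟦(1 : ℤ)⟧' = (x ≫ (R ◁ f) ≫ mulMap R A) ≫ F.bI A ∧
      e ≫ (unitMap R (IB F.I (q + 2) A))⟦(1 : ℤ)⟧' =
        (x ≫ (R ◁ cf)) ≫ (csh R 1 (IB F.I (q + 2) A)).hom +
        cx ≫ (IBm F.I (q + 2) ((V ◁ f) ≫ sw V R A ≫ (R ◁ a)))⟦(1 : ℤ)⟧' ≫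
          (IBmv F.I R (q + 2) A)⟦(1 : ℤ)⟧' := by
  obtain ⟨a', ha1, ha2⟩ := P.exists_lift_Θ (extV a f) (extB F (q + 2) a cf) (extV_bI q a f cf hf)
  obtain ⟨y, hy1, hy2⟩ := P.exists_lift_Θ _ cx hx
  obtain ⟨z, e₀, w, hz1, hz2, hw⟩ := P.toNData.leibniz a' _ ha2 y _ hy2
  -- correction of `e₀`
  obtain ⟨w', hw'⟩ : ∃ w' : Q ⟶ F.I ⊗ (P.K ⊗ A), w'⟦(1 : ℤ)⟧' = w ≫ F.bI (P.K ⊗ A) :=
    ⟨(shiftFunctor T (1 : ℤ)).preimage _, Functor.map_preimage _ _⟩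
  have hw1 : w' ≫ ep F.ε (P.K ⊗ A) = 0 := by
    apply (shiftFunctor T (1 : ℤ)).map_injective
    rw [Functor.map_comp, hw', Category.assoc, bI_ep, comp_zero, Functor.map_zero]
  have hz1' : z ≫ (P.r ▷ A) = x ≫ (R ◁ f) ≫ mulMap R A := by
    rw [hz1, hy1, ha1, Category.assoc, ← MonoidalCategory.whiskerLeft_comp_assoc,
      uN_extV i a ha f]
  have he1 : (e₀ - w') ≫ ep F.ε (P.K ⊗ A) = z ≫ (P.pr ▷ A) := by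
    rw [Preadditive.sub_comp, hw1, sub_zero, hz2]
  have he2 : (e₀ - w') ≫ unitMap R (F.I ⊗ (P.K ⊗ A)) =
      (y ≫ (P.r ▷ (V ⊗ X))) ≫ (R ◁ (extB F (q + 2) a cf ≫ (P.Θ A).inv)) +
        (cx ≫ (P.Θ (V ⊗ X)).inv) ≫ (F.I ◁ (P.K ◁ (a' ≫ (P.r ▷ A)))) ≫
          (F.I ◁ sw P.K R A) ≫ sw F.I R (P.K ⊗ A) := by
    apply (shiftFunctor T (1 : ℤ)).map_injective
    have h1 : (w' ≫ unitMap R (F.I ⊗ (P.K ⊗ A)))⟦(1 : ℤ)⟧' = w ≫ F.dI (P.K ⊗ A) := by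
      rw [Functor.map_comp, hw', UFib.dI, Category.assoc]
    rw [← h1, ← sub_eq_zero, ← Functor.map_sub] at hw
    rw [← sub_eq_zero, ← Functor.map_sub, ← hw]
    congr 1
    rw [Preadditive.sub_comp]
    abel
  refine ⟨(e₀ - w') ≫ (P.Θ A).hom, ?_, ?_⟩
  · rw [Category.assoc, P.Θ_col, reassoc_of% he1, ← P.comm, ← hz1', Category.assoc]
  · have h2 : (P.Θ A).hom ≫ (unitMap R (IB F.I (q + 2) A))⟦(1 : ℤ)⟧' =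
        unitMap R (F.I ⊗ (P.K ⊗ A)) ≫ (R ◁ (P.Θ A).hom) ≫
          (csh R 1 (IB F.I (q + 2) A)).hom := by
      rw [← unitMap_csh, unitMap_nat_assoc]
    rw [Category.assoc, h2, reassoc_of% he2, Preadditive.add_comp]
    congr 1
    · have h3 : uN i X ≫ (extB F (q + 2) a cf ≫ (P.Θ A).inv) ≫ (P.Θ A).hom = cf := by
        rw [Category.assoc, Iso.inv_hom_id, Category.comp_id, uN_extB i (q + 2) a ha cf]
      rw [reassoc_of% hy1]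
      simp only [Category.assoc]
      rw [← MonoidalCategory.whiskerLeft_comp_assoc, ← MonoidalCategory.whiskerLeft_comp_assoc,
        Category.assoc, h3]
    · rw [ha1]
      simp only [Category.assoc]
      rw [P.Θ_sw, P.Θ_nat_assoc, Iso.inv_hom_id_assoc]
      rfl

end NPack

end Vale.Agent.P257.H820
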