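import Vale.Agent.P257.H712.Bridge

/-!
# P257, package TOP-2 (helper712): surjectivity of the multiplication by `x^K` on the `E₂`-term
-/

open CategoryTheory MonoidalCategory Limits Pretriangulated MonObj

set_option linter.unusedSectionVars false

universe v u

namespace Vale.Agent.P257.H712

open Vale.Agent.P251 Vale.Agent.P251.T Vale.Agent.P251.F Vale.Agent.P251.I
  Vale.Agent.P251.M Vale.Agent.P257.H314
open Vale.Agent.P251.S hiding IC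
open Vale.Agent.P251.B (sphE)

variable {T : Type u} [Category.{v} T] [Preadditive T] [HasZeroObject T]
    [HasShift T ℤ] [∀ n : ℤ, (shiftFunctor T n).Additive] [Pretriangulated T]
    [MonoidalCategory T] [SymmetricCategory T] [TensorTriangulated T]

section

variable {R : T} [MonObj R] (U : UnitCof R) (P : T) {F : T ⥤ T} [F.CommShift ℤ]
  [F.IsTriangulated] (τ : 𝟭 T ⟶ F) [NatTrans.CommShift τ ℤ]

/-- The class of a cochain, in terms of the map `UnitCof.qE`. -/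
lemma qE_eq {s : ℕ} {n t : ℤ} (h : n + (s : ℤ) = t) (f : P⟦t⟧ ⟶ U.cobar.Q (s + 1) (𝟙_ T)) :
    qE U P τ h f = U.qE (𝟙_ T) F P h (f ≫ τ.app _) := by
  apply (U.eT (𝟙_ T) F P h).injective
  rw [U.eT_qE (𝟙_ T) F P h]
  refine (eE_qE U P τ h f).trans ?_
  rw [Category.assoc, Category.assoc]
  exact congrArg (f ≫ ·) (τ.naturality (U.cobar.q s (𝟙_ T)))

end

variable [HasCoproducts.{0} T]

/-- The identifications of spheres. -/
noncomputable def αK {w v t k : ℤ} (α : (stdEven T).S w ≅ (𝟙_ T)⟦t⟧)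
    (β : (stdEven T).S v ≅ (𝟙_ T)⟦k⟧) :
    ∀ K : ℕ, (stdEven T).S (Couple.Mul2.deg v w K) ≅ (𝟙_ T)⟦Couple.Mul2.deg k t K⟧
  | 0 => α
  | K + 1 => prodSph (αK α β K) β rfl rfl

variable {D : MUData T} {U : UnitCof D.R}

/-- The iterated cup products of cochains realize the iterated cup products in `Cob Laz`. -/
lemma cupK_realizes {s : ℕ} {w v t k : ℤ} {α : (stdEven T).S w ≅ (𝟙_ T)⟦t⟧}
    {β : (stdEven T).S v ≅ (𝟙_ T)⟦k⟧} {c : Cob Laz s} {b : Cob Laz 2}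
    {f : (𝟙_ T)⟦t⟧ ⟶ U.cobar.Q (s + 1) (𝟙_ T)} {z : (𝟙_ T)⟦k⟧ ⟶ U.cobar.Q 3 (𝟙_ T)}
    (hf : Realizes D U α c f) (hz : Realizes D U β b z) (K : ℕ) :
    Realizes D U (αK α β K) (cupN c b K) (cupK U (𝟙_ T) z f K) := by
  induction K with
  | zero => exact hf
  | succ K ih => exact Realizes.cup (s := s + 2 * K) ih hz rfl rfl

variable {V : T} {i : 𝟙_ T ⟶ V} {p h₀ : ℕ}

/-- The hypothesis on the surjectivity of the multiplication by `x^(K+1)` of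
`Lifts.succ_of_mul`. -/
theorem onto_of_alg (H : Cyc D p h₀ i) {b : Cob Laz 2} {v : ℤ} (hb : Cob.IsWt v b)
    {k a : ℤ} (hk : k = a + 2) (β : (stdEven T).S v ≅ (𝟙_ T)⟦k⟧)
    (x : (𝟙_ T)⟦k⟧ ⟶ U.cobar.B 2 (𝟙_ T))
    (hξ : ∀ s, U.ξ k x (s + 1) ≫ (U.tow (𝟙_ T)).c (s + 2) =
      ((U.tow (𝟙_ T)).c s)⟦k⟧' ≫ (shiftFunctorComm T (1 : ℤ) k).hom.app ((U.tow (𝟙_ T)).J s) ≫
        (U.ξ k x s)⟦(1 : ℤ)⟧')
    (z : (𝟙_ T)⟦k⟧ ⟶ U.cobar.Q 3 (𝟙_ T))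
    (hz : z ≫ U.cobar.q 2 (𝟙_ T) = x ≫ unitMap D.R (U.cobar.B 2 (𝟙_ T)))
    (hzb : Realizes D U β b z) {s : ℕ} {w n : ℤ} (hn : n + (s : ℤ) = 2 * w) {K : ℕ}
    (ho : AlgOnto p h₀ b v s w K)
    (e : (((U.tow (𝟙_ T)).map (tensorRight V)).couple (𝟙_ T)).E (s + 2 * (K + 1))
      (Couple.Mul2.deg a n (K + 1)))
    (he : (((U.tow (𝟙_ T)).map (tensorRight V)).couple (𝟙_ T)).IsCocycle e) :
    ∃ e₀ : (((U.tow (𝟙_ T)).map (tensorRight V)).couple (𝟙_ T)).E s n,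
      (((U.tow (𝟙_ T)).map (tensorRight V)).couple (𝟙_ T)).IsCocycle e₀ ∧
      Null (((U.tow (𝟙_ T)).map (tensorRight V)).couple (𝟙_ T)) (s + 2 * K + 1)
        (e - (ME₂ U (𝟙_ T) (tensorRight V) hk x hξ).powE (K + 1) e₀) := by
  let F := tensorRight V
  let t' := Couple.Mul2.deg k (2 * w) (K + 1)
  let α := αK (sphE T w) β (K + 1)
  have h' : Couple.Mul2.deg a n (K + 1) + ((s + 2 * (K + 1) : ℕ) : ℤ) = t' :=
    deg_add' hk hn (K + 1)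
  have h1 : (Couple.Mul2.deg a n (K + 1) + 1) + ((s + 2 * K + 1 : ℕ) : ℤ) = t' := by
    rw [← h']; push_cast; ring
  obtain ⟨c, hc, rfl⟩ := U.exists_cocycle_qE (𝟙_ T) F (𝟙_ T) h' e he
  obtain ⟨z₁, rfl, hdz₁⟩ := Cyc.exists_cocycle H α c hc
  obtain ⟨c₀, y, hc₀, hy, hdc₀, heq⟩ := ho z₁.1 z₁.2 hdz₁
  let c₀' : Cob.wt Laz s w := ⟨c₀, hc₀⟩
  let y' : Cob.wt Laz (s + 2 * K + 1) (Couple.Mul2.deg v w (K + 1)) := ⟨y, hy⟩
  let f₀ : (𝟙_ T)⟦2 * w⟧ ⟶ U.cobar.Q (s + 1) (𝟙_ T) := (sphE T w).inv ≫ D.phi U s w c₀'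
  have hf₀ : Realizes D U (sphE T w) c₀'.1 f₀ := (realizes_iff (sphE T w) c₀' f₀).2 rfl
  have hreal := cupK_realizes hf₀ hzb (K + 1)
  have hw1 : Cob.IsWt (Couple.Mul2.deg v w (K + 1)) (cupN c₀'.1 b (K + 1)) :=
    cupN_isWt c₀'.2 hb (K + 1)
  have hreal' : cupK U (𝟙_ T) z f₀ (K + 1) ≫
      (redC i).app (U.cobar.Q (s + 2 * (K + 1) + 1) (𝟙_ T)) =
      α.inv ≫ phiV D U i (s + 2 * (K + 1)) (Couple.Mul2.deg v w (K + 1)) ⟨_, hw1⟩ := by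
    rw [(realizes_iff α ⟨_, hw1⟩ _).1 hreal, Category.assoc, phiV_apply]
  have hf₀' : f₀ ≫ (redC i).app (U.cobar.Q (s + 1) (𝟙_ T)) =
      (sphE T w).inv ≫ phiV D U i s w c₀' := Category.assoc _ _ _
  refine ⟨qE U (𝟙_ T) (redC i) hn f₀, ?_, ?_⟩
  · intro m hm
    rw [qE_eq]
    have h2 : m + ((s + 1 : ℕ) : ℤ) = 2 * w := by push_cast; omega
    refine (U.d_qE (𝟙_ T) F (𝟙_ T) hm hn h2 _).trans ?_
    have h3 : (f₀ ≫ (redC i).app (U.cobar.Q (s + 1) (𝟙_ T))) ≫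
        F.map (U.cobar.d (s + 1) (𝟙_ T)) = 0 := by
      have h4 : phiV D U i (s + 1) w (Cob.dwt Laz s w c₀') = 0 :=
        (Cyc.phiV_ker H (s + 1) w _).2 hdc₀
      rw [phiV_d] at h4
      rw [hf₀', Category.assoc, h4, comp_zero]
    exact (congrArg _ h3).trans (map_zero _)
  · rw [powE_qE U (𝟙_ T) (redC i) hk x hξ z hz hn f₀ (K + 1), qE_eq, hreal', ← map_sub]
    refine null_of_isCobdy (s := s + 2 * K + 1) ⟨U.qE (𝟙_ T) F (𝟙_ T) h1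
      (α.inv ≫ phiV D U i (s + 2 * K + 1) _ y'), ?_⟩
    refine (U.d_qE (𝟙_ T) F (𝟙_ T) rfl h1 h' _).trans ?_
    congr 1
    rw [Category.assoc, ← phiV_d, ← Preadditive.comp_sub, ← map_sub]
    refine congrArg (α.inv ≫ ·) (Cyc.phiV_eq H ?_)
    change Cob.d (s + 2 * K + 1) y - (z₁.1 - cupN c₀ b (K + 1)) ∈ IC p h₀ (s + 2 * (K + 1))
    have h8 := neg_mem heq
    rwa [neg_sub] at h8

end Vale.Agent.P257.H712
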