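import Vale.Agent.P251.S.Detect
import Vale.Agent.P257.H712.Survive

/-!
# P257, package TOP-2 (helper712): multiplication by a filtration `2` class on `E₁`

* `towMulE`: the multiplication on the `E₁`-term of the couple of a tower;
* `mapMulE`: the same for the image of a tower under a triangulated functor;
* `qE f`: the class in `E₁` of a map `f : P⟦t⟧ ⟶ Q (s+1) 𝟙`, for `F` of the tower of `𝟙`;
* `powE_qE`: `x^K` times the class of `f` is the class of the iterated cup product of `f` with `z`.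
-/

open CategoryTheory MonoidalCategory Limits Pretriangulated MonObj

set_option linter.unusedSectionVars false

universe v u

namespace Vale.Agent.P257.H712

open Vale.Agent.P251.S Vale.Agent.P251.T

section Tower

variable {T : Type u} [Category.{v} T] [Preadditive T] [HasZeroObject T] [HasShift T ℤ]
  [∀ n : ℤ, (shiftFunctor T n).Additive] [Pretriangulated T] (X : Tow T) (P : T)

/-- Multiplication on `E₁`. -/
noncomputable def muEMap (k a : ℤ) (hk : k = a + 2) (ζ : ∀ s, (X.W s)⟦k⟧ ⟶ X.W (s + 2))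
    (s : ℕ) (n : ℤ) :
    (P⟦n + (s : ℤ)⟧ ⟶ X.W s) →+ (P⟦n + a + ((s + 2 : ℕ) : ℤ)⟧ ⟶ X.W (s + 2)) :=
  AddMonoidHom.mk' (fun y => sh (P := P) (n + (s : ℤ)) k (n + a + ((s + 2 : ℕ) : ℤ))
    (by rw [hk]; push_cast; ring) y ≫ ζ s)
    (by intro x y; rw [map_add, Preadditive.add_comp])

/-- The multiplication on the `E₁`-term of the couple of a tower. -/
noncomputable def towMulE (k a : ℤ) (hk : k = a + 2) (ξ : ∀ s, (X.J s)⟦k⟧ ⟶ X.J (s + 2))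
    (hξ : ∀ s, ξ (s + 1) ≫ X.c (s + 2) =
      (X.c s)⟦k⟧' ≫ (shiftFunctorComm T (1 : ℤ) k).hom.app (X.J s) ≫ (ξ s)⟦(1 : ℤ)⟧')
    (ζ : ∀ s, (X.W s)⟦k⟧ ⟶ X.W (s + 2))
    (hζ : ∀ s, (X.a s)⟦k⟧' ≫ ζ s = ξ s ≫ X.a (s + 2)) :
    MulE (X.couple P) (X.mul2 P k a hk ξ hξ) where
  μE s n := muEMap X P k a hk ζ s n
  j_μ s n y := by
    have key : ∀ y : P⟦n + (s : ℤ)⟧ ⟶ X.J s,
        (sh (P := P) (n + (s : ℤ)) k (n + a + ((s + 2 : ℕ) : ℤ))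
          (by rw [hk]; push_cast; ring) y ≫ ξ s) ≫ X.a (s + 2) =
        sh (P := P) (n + (s : ℤ)) k (n + a + ((s + 2 : ℕ) : ℤ))
          (by rw [hk]; push_cast; ring) (y ≫ X.a s) ≫ ζ s := by
      intro y
      rw [sh_comp, Category.assoc, Category.assoc, hζ]
    exact key y

lemma eE_μE (k a : ℤ) (hk : k = a + 2) (ξ : ∀ s, (X.J s)⟦k⟧ ⟶ X.J (s + 2))
    (hξ : ∀ s, ξ (s + 1) ≫ X.c (s + 2) =
      (X.c s)⟦k⟧' ≫ (shiftFunctorComm T (1 : ℤ) k).hom.app (X.J s) ≫ (ξ s)⟦(1 : ℤ)⟧')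
    (ζ : ∀ s, (X.W s)⟦k⟧ ⟶ X.W (s + 2))
    (hζ : ∀ s, (X.a s)⟦k⟧' ≫ ζ s = ξ s ≫ X.a (s + 2))
    {s : ℕ} {n t t' : ℤ} (h : n + (s : ℤ) = t) (h' : n + a + ((s + 2 : ℕ) : ℤ) = t')
    (ht : t + k = t') (y : (X.couple P).E s n) :
    X.eE P h' ((towMulE X P k a hk ξ hξ ζ hζ).μE s n y) = sh t k t' ht (X.eE P h y) ≫ ζ s := by
  subst h; subst h'
  rfl

/-- The multiplication on `E₁` of the image of a tower. -/
noncomputable def mapZeta (F : T ⥤ T) [F.CommShift ℤ] [F.IsTriangulated] {k : ℤ}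
    (ζ : ∀ s, (X.W s)⟦k⟧ ⟶ X.W (s + 2)) (s : ℕ) :
    ((X.map F).W s)⟦k⟧ ⟶ (X.map F).W (s + 2) :=
  (F.commShiftIso k).inv.app (X.W s) ≫ F.map (ζ s)

lemma mapZeta_comm (F : T ⥤ T) [F.CommShift ℤ] [F.IsTriangulated] {k : ℤ}
    (ξ : ∀ s, (X.J s)⟦k⟧ ⟶ X.J (s + 2)) (ζ : ∀ s, (X.W s)⟦k⟧ ⟶ X.W (s + 2))
    (hζ : ∀ s, (X.a s)⟦k⟧' ≫ ζ s = ξ s ≫ X.a (s + 2)) (s : ℕ) :
    ((X.map F).a s)⟦k⟧' ≫ mapZeta X F ζ s = X.mapXi F ξ s ≫ (X.map F).a (s + 2) := by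
  change (F.map (X.a s))⟦k⟧' ≫ (F.commShiftIso k).inv.app (X.W s) ≫ F.map (ζ s) =
    ((F.commShiftIso k).inv.app (X.J s) ≫ F.map (ξ s)) ≫ F.map (X.a (s + 2))
  rw [Category.assoc, ← F.map_comp, ← hζ, F.map_comp]
  have h := (F.commShiftIso k).inv.naturality (X.a s)
  change (F.map (X.a s))⟦k⟧' ≫ _ = _ ≫ F.map ((X.a s)⟦k⟧') at h
  rw [← Category.assoc, h, Category.assoc]

/-- The multiplication on the `E₁`-term of the couple of the image of a tower. -/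
noncomputable def mapMulE (F : T ⥤ T) [F.CommShift ℤ] [F.IsTriangulated] (k a : ℤ)
    (hk : k = a + 2) (ξ : ∀ s, (X.J s)⟦k⟧ ⟶ X.J (s + 2))
    (hξ : ∀ s, ξ (s + 1) ≫ X.c (s + 2) =
      (X.c s)⟦k⟧' ≫ (shiftFunctorComm T (1 : ℤ) k).hom.app (X.J s) ≫ (ξ s)⟦(1 : ℤ)⟧')
    (ζ : ∀ s, (X.W s)⟦k⟧ ⟶ X.W (s + 2))
    (hζ : ∀ s, (X.a s)⟦k⟧' ≫ ζ s = ξ s ≫ X.a (s + 2)) :
    MulE ((X.map F).couple P) (X.mapMul2 P F k a hk ξ hξ) :=
  towMulE (X.map F) P k a hk (X.mapXi F ξ) (X.mapXi_comm F ξ hξ) (mapZeta X F ζ)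
    (mapZeta_comm X F ξ ζ hζ)

end Tower

section Cobar

variable {T : Type u} [Category.{v} T] [Preadditive T] [HasZeroObject T] [HasShift T ℤ]
  [∀ n : ℤ, (shiftFunctor T n).Additive] [Pretriangulated T] [MonoidalCategory T]
  [SymmetricCategory T] [TensorTriangulated T] {R : T} [MonObj R] (U : UnitCof R) (P : T)

lemma ξW_comm (k : ℤ) {Y Z : T} (x : Y⟦k⟧ ⟶ U.cobar.B 2 Z) (s : ℕ) :
    ((U.tow Y).a s)⟦k⟧' ≫ U.ξW k x s = U.ξ k x s ≫ (U.tow Z).a (s + 2) :=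
  U.unitMap_ξW k x s

section

variable {F : T ⥤ T} [F.CommShift ℤ] [F.IsTriangulated] (τ : 𝟭 T ⟶ F) [NatTrans.CommShift τ ℤ]

/-- The class in `E₁` of the tower of `F` of a cochain `f : P⟦t⟧ ⟶ Q (s+1) 𝟙`. -/
noncomputable def qE {s : ℕ} {n t : ℤ} (h : n + (s : ℤ) = t)
    (f : P⟦t⟧ ⟶ U.cobar.Q (s + 1) (𝟙_ T)) :
    (((U.tow (𝟙_ T)).map F).couple P).E s n :=
  (((U.tow (𝟙_ T)).map F).eE P h).symm ((f ≫ U.cobar.q s (𝟙_ T)) ≫ τ.app _)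

lemma eE_qE {s : ℕ} {n t : ℤ} (h : n + (s : ℤ) = t)
    (f : P⟦t⟧ ⟶ U.cobar.Q (s + 1) (𝟙_ T)) :
    ((U.tow (𝟙_ T)).map F).eE P h (qE U P τ h f) = (f ≫ U.cobar.q s (𝟙_ T)) ≫ τ.app _ :=
  AddEquiv.apply_symm_apply _ _

/-- The natural transformation and the multiplication. -/
lemma sh_τ_mapZeta {k : ℤ} {W W' : T} (ζ : W⟦k⟧ ⟶ W') {t t' : ℤ} (ht : t + k = t')
    (g : P⟦t⟧ ⟶ W) :
    sh t k t' ht (g ≫ τ.app W) ≫ (F.commShiftIso k).inv.app W ≫ F.map ζ =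
      (sh t k t' ht g ≫ ζ) ≫ τ.app W' := by
  rw [sh_comp, Category.assoc, Category.assoc]
  have h := NatTrans.shift_app_comm τ k W
  rw [Functor.commShiftIso_id_hom_app] at h
  have h' : (τ.app W)⟦k⟧' ≫ (F.commShiftIso k).inv.app W = τ.app (W⟦k⟧) := by
    rw [← cancel_mono ((F.commShiftIso k).hom.app W), Category.assoc, Iso.inv_hom_id_app]
    exact (Category.comp_id _).trans ((Category.id_comp _).symm.trans h)
  rw [reassoc_of% h']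
  congr 1
  exact (τ.naturality ζ).symm

variable {k a : ℤ} (hk : k = a + 2) (x : (𝟙_ T)⟦k⟧ ⟶ U.cobar.B 2 (𝟙_ T))
  (hξ : ∀ s, U.ξ k x (s + 1) ≫ (U.tow (𝟙_ T)).c (s + 2) =
      ((U.tow (𝟙_ T)).c s)⟦k⟧' ≫ (shiftFunctorComm T (1 : ℤ) k).hom.app ((U.tow (𝟙_ T)).J s) ≫
        (U.ξ k x s)⟦(1 : ℤ)⟧')

variable (F) in
/-- The multiplication by `x` on the couple of `F` of the tower of `𝟙`. -/
noncomputable def M₂ : (((U.tow (𝟙_ T)).map F).couple P).Mul2 a :=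
  (U.tow (𝟙_ T)).mapMul2 P F k a hk (U.ξ k x) hξ

variable (F) in
/-- The multiplication by `x` on the `E₁`-term. -/
noncomputable def ME₂ : MulE (((U.tow (𝟙_ T)).map F).couple P) (M₂ U P F hk x hξ) :=
  mapMulE (U.tow (𝟙_ T)) P F k a hk (U.ξ k x) hξ (U.ξW k x) (ξW_comm U k x)

variable (z : (𝟙_ T)⟦k⟧ ⟶ U.cobar.Q 3 (𝟙_ T))
  (hz : z ≫ U.cobar.q 2 (𝟙_ T) = x ≫ unitMap R (U.cobar.B 2 (𝟙_ T)))

include hz in
/-- Multiplication by `x` on `E₁` is induced by the cup product with `z`. -/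
lemma μE_qE {s : ℕ} {n t t' : ℤ} (h : n + (s : ℤ) = t) (h' : n + a + ((s + 2 : ℕ) : ℤ) = t')
    (ht : t + k = t') (f : P⟦t⟧ ⟶ U.cobar.Q (s + 1) (𝟙_ T)) :
    (ME₂ U P F hk x hξ).μE s n (qE U P τ h f) =
      qE U P τ h' (sh t k t' ht f ≫ U.cupQ k z s) := by
  apply (((U.tow (𝟙_ T)).map F).eE P h').injective
  refine (eE_μE ((U.tow (𝟙_ T)).map F) P k a hk ((U.tow (𝟙_ T)).mapXi F (U.ξ k x))
    ((U.tow (𝟙_ T)).mapXi_comm F (U.ξ k x) hξ) (mapZeta (U.tow (𝟙_ T)) F (U.ξW k x))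
    (mapZeta_comm (U.tow (𝟙_ T)) F (U.ξ k x) (U.ξW k x) (ξW_comm U k x)) h h' ht _).trans ?_
  rw [eE_qE, eE_qE]
  refine (sh_τ_mapZeta P τ (U.ξW k x s) ht (f ≫ U.cobar.q s (𝟙_ T))).trans ?_
  congr 1
  rw [sh_comp, Category.assoc, Category.assoc, U.cupQ_q k z x hz s]

/-- Iterated cup products with `z`. -/
noncomputable def cupK {s : ℕ} {t : ℤ} (f : P⟦t⟧ ⟶ U.cobar.Q (s + 1) (𝟙_ T)) :
    ∀ K : ℕ, P⟦Couple.Mul2.deg k t K⟧ ⟶ U.cobar.Q (s + 2 * K + 1) (𝟙_ T)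
  | 0 => f
  | K + 1 => sh (Couple.Mul2.deg k t K) k (Couple.Mul2.deg k t (K + 1)) rfl (cupK f K) ≫
      U.cupQ k z (s + 2 * K)

lemma deg_add' {k a : ℤ} (hk : k = a + 2) {s : ℕ} {n t : ℤ} (h : n + (s : ℤ) = t) (K : ℕ) :
    Couple.Mul2.deg a n K + ((s + 2 * K : ℕ) : ℤ) = Couple.Mul2.deg k t K := by
  rw [Couple.Mul2.deg_eq, Couple.Mul2.deg_eq, hk, ← h]
  push_cast
  ring

include hz in
/-- `x^K` times the class of `f` is the class of the iterated cup product of `f` with `z`. -/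
lemma powE_qE {s : ℕ} {n t : ℤ} (h : n + (s : ℤ) = t)
    (f : P⟦t⟧ ⟶ U.cobar.Q (s + 1) (𝟙_ T)) (K : ℕ) :
    (ME₂ U P F hk x hξ).powE K (qE U P τ h f) =
      qE U P τ (deg_add' hk h K) (cupK U P z f K) := by
  induction K with
  | zero => rfl
  | succ K ih =>
    rw [MulE.powE_succ, ih]
    exact μE_qE U P τ hk x hξ z hz (deg_add' hk h K) (deg_add' hk h (K + 1)) rfl _

end

end Cobar

end Vale.Agent.P257.H712
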