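import Vale.Agent.P257.H712.Main

/-!
# P257, package TOP-2 (helper712): the operators of filtration `0` as tensor products

* `tpow b K : A^{⊗K} ⟶ B^{⊗K}`;
* `exists_act_eq`: the action `act F f y` of `f : 𝟙⟦k⟧ ⟶ Z` on `y : 𝟙⟦t⟧ ⟶ 𝟙 ⊗ V` is `f ⊗ₘ y`;
* `i_M₁_eq_zero_iff'`: `α y = 0` iff `(a ≫ δ) ⊗ₘ ζ_y = 0`;
* `powB_eq_zero_iff`: `β^K y = 0` iff `β^{⊗ K} ⊗ₘ ζ_y = 0`.
-/

open CategoryTheory MonoidalCategory Limits Pretriangulated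

set_option linter.unusedSectionVars false

universe v u

namespace Vale.Agent.P257.H712

open Vale.Agent.P251 Vale.Agent.P251.T Vale.Agent.P251.S

section Pow

variable {T : Type u} [Category.{v} T] [MonoidalCategory T]

/-- The tensor powers of a morphism. -/
def tpow {A B : T} (b : A ⟶ B) : ∀ K : ℕ, Am A K ⟶ Am B K
  | 0 => 𝟙 _
  | K + 1 => tpow b K ⊗ₘ b

lemma tpow_zero {A B : T} (b : A ⟶ B) : tpow b 0 = 𝟙 (𝟙_ T) := rfl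

lemma tpow_succ {A B : T} (b : A ⟶ B) (K : ℕ) : tpow b (K + 1) = tpow b K ⊗ₘ b := rfl

end Pow

section Cancel

variable {T : Type u} [Category.{v} T] [Preadditive T] [MonoidalCategory T]
  [MonoidalPreadditive T]

/-- An object `S` with `S' ⊗ S ≅ 𝟙`. -/
lemma whiskerLeft_eq_zero_iff_of_inv {S S' : T} (ε : S' ⊗ S ≅ 𝟙_ T) {X Y : T} (f : X ⟶ Y) :
    S ◁ f = 0 ↔ f = 0 := by
  refine ⟨fun h => ?_, fun h => by rw [h, MonoidalPreadditive.whiskerLeft_zero]⟩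
  have h1 : S' ◁ (S ◁ f) = 0 := by rw [h, MonoidalPreadditive.whiskerLeft_zero]
  have h2 : (S' ⊗ S) ◁ f = 0 := by
    rw [tensor_whiskerLeft, h1, zero_comp, comp_zero]
  have h3 : (ε.hom ▷ X) ≫ ((𝟙_ T) ◁ f) = 0 := by
    rw [← whisker_exchange, h2, zero_comp]
  have h4 : ((𝟙_ T) ◁ f) = 0 := by
    have : (ε.inv ▷ X) ≫ (ε.hom ▷ X) ≫ ((𝟙_ T) ◁ f) = 0 := by rw [h3, comp_zero]
    rwa [← comp_whiskerRight_assoc, Iso.inv_hom_id, id_whiskerRight, Category.id_comp] at this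
  have h5 := leftUnitor_naturality f
  rw [h4, zero_comp] at h5
  have h6 : (λ_ X).inv ≫ (λ_ X).hom ≫ f = 0 := by rw [← h5, comp_zero]
  rwa [Iso.inv_hom_id_assoc] at h6

end Cancel

section Tensor

variable {T : Type u} [Category.{v} T] [Preadditive T] [HasZeroObject T] [HasShift T ℤ]
  [∀ n : ℤ, (shiftFunctor T n).Additive] [Pretriangulated T] [MonoidalCategory T]
  [SymmetricCategory T] [TensorTriangulated T]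

/-- `𝟙⟦1⟧⟦1⟧ ⊗ Y ≅ Y⟦1⟧⟦1⟧`. -/
noncomputable def sph2 (Y : T) :
    ((((𝟙_ T)⟦(1 : ℤ)⟧)⟦(1 : ℤ)⟧ : T) ⊗ Y) ≅ (Y⟦(1 : ℤ)⟧)⟦(1 : ℤ)⟧ :=
  ((tensorRight Y).commShiftIso (1 : ℤ)).app ((𝟙_ T)⟦(1 : ℤ)⟧) ≪≫
    (shiftFunctor T (1 : ℤ)).mapIso (((tensorRight Y).commShiftIso (1 : ℤ)).app (𝟙_ T)) ≪≫
    (shiftFunctor T (1 : ℤ)).mapIso ((shiftFunctor T (1 : ℤ)).mapIso (λ_ Y))

lemma sph2_hom (Y : T) : (sph2 Y).hom =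
    ((tensorRight Y).commShiftIso (1 : ℤ)).hom.app ((𝟙_ T)⟦(1 : ℤ)⟧) ≫
      (((tensorRight Y).commShiftIso (1 : ℤ)).hom.app (𝟙_ T))⟦(1 : ℤ)⟧' ≫
        ((λ_ Y).hom⟦(1 : ℤ)⟧')⟦(1 : ℤ)⟧' := rfl

lemma sph2_naturality {Y Z : T} (f : Y ⟶ Z) :
    ((((𝟙_ T)⟦(1 : ℤ)⟧)⟦(1 : ℤ)⟧ : T) ◁ f) ≫ (sph2 Z).hom =
      (sph2 Y).hom ≫ (f⟦(1 : ℤ)⟧')⟦(1 : ℤ)⟧' := by
  have h0 := NatTrans.shift_app_comm (trMap f) (1 : ℤ) ((𝟙_ T)⟦(1 : ℤ)⟧)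
  have h1 := NatTrans.shift_app_comm (trMap f) (1 : ℤ) (𝟙_ T)
  change ((tensorRight Y).commShiftIso (1 : ℤ)).hom.app ((𝟙_ T)⟦(1 : ℤ)⟧) ≫
      ((((𝟙_ T)⟦(1 : ℤ)⟧ : T)) ◁ f)⟦(1 : ℤ)⟧' =
    ((((𝟙_ T)⟦(1 : ℤ)⟧)⟦(1 : ℤ)⟧ : T) ◁ f) ≫
      ((tensorRight Z).commShiftIso (1 : ℤ)).hom.app ((𝟙_ T)⟦(1 : ℤ)⟧) at h0
  change ((tensorRight Y).commShiftIso (1 : ℤ)).hom.app (𝟙_ T) ≫ ((𝟙_ T) ◁ f)⟦(1 : ℤ)⟧' =
    (((𝟙_ T)⟦(1 : ℤ)⟧ : T) ◁ f) ≫ ((tensorRight Z).commShiftIso (1 : ℤ)).hom.app (𝟙_ T) at h1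
  rw [sph2_hom, sph2_hom, ← reassoc_of% h0]
  simp only [Category.assoc, ← Functor.map_comp]
  rw [← Category.assoc (((𝟙_ T)⟦(1 : ℤ)⟧ : T) ◁ f), ← h1, Category.assoc,
    ← Functor.map_comp, leftUnitor_naturality]

/-- The object `𝟙⟦1⟧⟦1⟧` is invertible. -/
noncomputable def sph2Inv :
    (((𝟙_ T)⟦(-1 : ℤ)⟧)⟦(-1 : ℤ)⟧ ⊗ (((𝟙_ T)⟦(1 : ℤ)⟧)⟦(1 : ℤ)⟧ : T)) ≅ 𝟙_ T :=
  ((tensorRight ((((𝟙_ T)⟦(1 : ℤ)⟧)⟦(1 : ℤ)⟧ : T))).commShiftIso (-1 : ℤ)).app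
      ((𝟙_ T)⟦(-1 : ℤ)⟧) ≪≫
    (shiftFunctor T (-1 : ℤ)).mapIso (((tensorRight
      ((((𝟙_ T)⟦(1 : ℤ)⟧)⟦(1 : ℤ)⟧ : T))).commShiftIso (-1 : ℤ)).app (𝟙_ T)) ≪≫
    (shiftFunctor T (-1 : ℤ)).mapIso ((shiftFunctor T (-1 : ℤ)).mapIso (λ_ _)) ≪≫
    (shiftFunctor T (-1 : ℤ)).mapIso
      (shiftShiftNeg ((𝟙_ T)⟦(1 : ℤ)⟧) (1 : ℤ)) ≪≫
    shiftShiftNeg (𝟙_ T) (1 : ℤ)

lemma sph2_whiskerLeft_eq_zero_iff {X Y : T} (f : X ⟶ Y) :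
    (((𝟙_ T)⟦(1 : ℤ)⟧)⟦(1 : ℤ)⟧ : T) ◁ f = 0 ↔ f = 0 :=
  whiskerLeft_eq_zero_iff_of_inv sph2Inv f

/-- Cancellation in a triple tensor product. -/
lemma tensor_whiskerLeft_eq_zero_iff {A B X Y : T} (g : A ⟶ B) (f : X ⟶ Y) :
    (g ⊗ₘ ((((𝟙_ T)⟦(1 : ℤ)⟧)⟦(1 : ℤ)⟧ : T) ◁ f)) = 0 ↔ (g ⊗ₘ f) = 0 := by
  let S : T := ((𝟙_ T)⟦(1 : ℤ)⟧)⟦(1 : ℤ)⟧
  have h1 : (g ⊗ₘ (S ◁ f)) = (α_ A S X).inv ≫ ((β_ A S).hom ▷ X) ≫ (α_ S A X).hom ≫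
      (S ◁ (g ⊗ₘ f)) ≫ (α_ S B Y).inv ≫ ((β_ S B).hom ▷ Y) ≫ (α_ B S Y).hom := by
    rw [← cancel_mono (α_ B S Y).inv, ← cancel_mono ((β_ S B).inv ▷ Y),
      ← cancel_mono (α_ S B Y).hom]
    simp only [Category.assoc, Iso.hom_inv_id_assoc, hom_inv_whiskerRight_assoc,
      Iso.inv_hom_id_assoc, Iso.inv_hom_id, Category.comp_id]
    rw [← id_tensorHom S f, associator_inv_naturality_assoc,
      ← id_tensorHom S (g ⊗ₘ f), ← associator_naturality]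
    congr 1
    have h2 : (g ⊗ₘ 𝟙 S) ≫ (β_ S B).inv = (β_ A S).hom ≫ (𝟙 S ⊗ₘ g) := by
      rw [← SymmetricCategory.braiding_swap_eq_inv_braiding S B]
      exact BraidedCategory.braiding_naturality g (𝟙 S)
    simp only [← tensorHom_id, tensorHom_comp_tensorHom_assoc, Category.comp_id,
      Category.id_comp, h2]
  constructor
  · intro h
    rw [h1] at h
    have h3 : S ◁ (g ⊗ₘ f) = 0 := by
      have h4 : (α_ S A X).inv ≫ ((β_ A S).inv ▷ X) ≫ (α_ A S X).hom ≫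
        ((α_ A S X).inv ≫ ((β_ A S).hom ▷ X) ≫ (α_ S A X).hom ≫
        (S ◁ (g ⊗ₘ f)) ≫ (α_ S B Y).inv ≫ ((β_ S B).hom ▷ Y) ≫ (α_ B S Y).hom) ≫
        (α_ B S Y).inv ≫ ((β_ S B).inv ▷ Y) ≫ (α_ S B Y).hom = 0 := by
        rw [h]; simp
      simpa using h4
    exact (sph2_whiskerLeft_eq_zero_iff _).1 h3
  · intro h
    rw [h1, h]
    simp

/-- The source of the action. -/
noncomputable def actIso (k t t' : ℤ) (ht : t + k = t') :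
    (𝟙_ T)⟦t'⟧ ≅ ((𝟙_ T)⟦k⟧) ⊗ ((𝟙_ T)⟦t⟧) :=
  (shiftFunctorAdd' T t k t' ht).app (𝟙_ T) ≪≫ (sphTensor k ((𝟙_ T)⟦t⟧)).symm

/-- The action as a tensor product. -/
lemma act_eq {V Z : T} {k t t' : ℤ} (ht : t + k = t') (f : (𝟙_ T)⟦k⟧ ⟶ Z)
    (y : (𝟙_ T)⟦t⟧ ⟶ 𝟙_ T ⊗ V) :
    act (tensorRight V) f ht y = (actIso k t t' ht).hom ≫ (f ⊗ₘ (y ≫ (λ_ V).hom)) := by
  have h1 := sphTensor_naturality k (y ≫ (λ_ V).hom)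
  have h2 : (sphTensor k V).hom =
    ((tensorRight V).commShiftIso k).hom.app (𝟙_ T) ≫ (λ_ V).hom⟦k⟧' := rfl
  rw [h2, Functor.map_comp, ← Category.assoc, ← Category.assoc, cancel_mono] at h1
  have h3 : (𝟙_ T)⟦k⟧ ◁ (y ≫ (λ_ V).hom) =
    (sphTensor k ((𝟙_ T)⟦t⟧)).hom ≫ y⟦k⟧' ≫ ((tensorRight V).commShiftIso k).inv.app (𝟙_ T) := by
    rw [← cancel_mono (((tensorRight V).commShiftIso k).hom.app (𝟙_ T)), h1, Category.assoc,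
      Category.assoc, Iso.inv_hom_id_app]
    exact congrArg _ (Category.comp_id _).symm
  rw [tensorHom_def', h3]
  change ((shiftFunctorAdd' T t k t' ht).hom.app (𝟙_ T) ≫ y⟦k⟧') ≫
    ((tensorRight V).commShiftIso k).inv.app (𝟙_ T) ≫ (f ▷ V) =
    ((shiftFunctorAdd' T t k t' ht).hom.app (𝟙_ T) ≫ (sphTensor k ((𝟙_ T)⟦t⟧)).inv) ≫ _
  simp only [Category.assoc, Iso.inv_hom_id_assoc]

lemma act_eq_zero_iff {V Z : T} {k t t' : ℤ} (ht : t + k = t') (f : (𝟙_ T)⟦k⟧ ⟶ Z)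
    (y : (𝟙_ T)⟦t⟧ ⟶ 𝟙_ T ⊗ V) :
    act (tensorRight V) f ht y = 0 ↔ (f ⊗ₘ (y ≫ (λ_ V).hom)) = 0 := by
  rw [act_eq]
  refine ⟨fun h => ?_, fun h => by rw [h, comp_zero]⟩
  have := congrArg ((actIso k t t' ht).inv ≫ ·) h
  simpa using this

end Tensor

section Tower

variable {T : Type u} [Category.{v} T] [Preadditive T] [HasZeroObject T] [HasShift T ℤ]
  [∀ n : ℤ, (shiftFunctor T n).Additive] [Pretriangulated T] [MonoidalCategory T]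
  [SymmetricCategory T] [TensorTriangulated T] {R : T} [MonObj R] (U : UnitCof R) {V : T}

/-- The group of filtration `0`. -/
noncomputable def e0 {n t : ℤ} (h : n + ((0 : ℕ) : ℤ) = t) :
    (((U.tow (𝟙_ T)).map (tensorRight V)).couple (𝟙_ T)).D 0 n ≃+ ((𝟙_ T)⟦t⟧ ⟶ 𝟙_ T ⊗ V) :=
  ((U.tow (𝟙_ T)).map (tensorRight V)).eD (𝟙_ T) h

/-- The element `ζ_y : 𝟙⟦t⟧ ⟶ V` of `y` in filtration `0`. -/
noncomputable def zet {n t : ℤ} (h : n + ((0 : ℕ) : ℤ) = t)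
    (y : (((U.tow (𝟙_ T)).map (tensorRight V)).couple (𝟙_ T)).D 0 n) : (𝟙_ T)⟦t⟧ ⟶ V :=
  e0 U h y ≫ (λ_ V).hom

lemma zet_eq_zero_iff {n t : ℤ} (h : n + ((0 : ℕ) : ℤ) = t)
    (y : (((U.tow (𝟙_ T)).map (tensorRight V)).couple (𝟙_ T)).D 0 n) :
    zet U h y = 0 ↔ y = 0 := by
  constructor
  · intro h0
    have h1 : e0 U h y = 0 := by
      have := congrArg (· ≫ (λ_ V).inv) h0
      simpa [zet] using this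
    exact (e0 U h).injective (h1.trans (map_zero _).symm)
  · rintro rfl
    rw [zet, map_zero, zero_comp]

/-- Every map `𝟙⟦t⟧ ⟶ V` is of the form `ζ_y`. -/
lemma exists_zet {n t : ℤ} (h : n + ((0 : ℕ) : ℤ) = t) (ζ : (𝟙_ T)⟦t⟧ ⟶ V) :
    ∃ y : (((U.tow (𝟙_ T)).map (tensorRight V)).couple (𝟙_ T)).D 0 n, zet U h y = ζ :=
  ⟨(e0 U h).symm (ζ ≫ (λ_ V).inv), by simp [zet]⟩

/-- `α y = 0` as a tensor product. -/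
theorem i_M₁_eq_zero_iff' {k a : ℤ} (hk : k = a + 1) (m : ℕ) (hm : k = 2 * (m : ℤ))
    (x : (𝟙_ T)⟦k⟧ ⟶ U.cobar.B 1 (𝟙_ T)) {n t : ℤ} (h : n + ((0 : ℕ) : ℤ) = t)
    (y : (((U.tow (𝟙_ T)).map (tensorRight V)).couple (𝟙_ T)).D 0 n) :
    (((U.tow (𝟙_ T)).map (tensorRight V)).couple (𝟙_ T)).i 0 (n + a)
      ((M₁ U (𝟙_ T) (tensorRight V) hk m hm x).μ 0 n y) = 0 ↔
      ((x ≫ U.bd 0 (𝟙_ T)) ⊗ₘ zet U h y) = 0 := by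
  obtain ⟨z, rfl⟩ := (e0 U (V := V) h).symm.surjective y
  refine (i_M₁_eq_zero_iff U (𝟙_ T) (tensorRight V) hk m hm x h rfl z).trans ?_
  refine (act_eq_zero_iff rfl _ _).trans ?_
  rw [zet, AddEquiv.apply_symm_apply]

variable {k a : ℤ} (hk : k = a + 2) (x : (𝟙_ T)⟦k⟧ ⟶ U.cobar.B 2 (𝟙_ T))
  (hξ : ∀ s, U.ξ k x (s + 1) ≫ (U.tow (𝟙_ T)).c (s + 2) =
      ((U.tow (𝟙_ T)).c s)⟦k⟧' ≫ (shiftFunctorComm T (1 : ℤ) k).hom.app ((U.tow (𝟙_ T)).J s) ≫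
        (U.ξ k x s)⟦(1 : ℤ)⟧')

/-- The map `β : 𝟙⟦k⟧ ⟶ 𝟙⟦1⟧⟦1⟧` of a class `x` of filtration two. -/
noncomputable def bet {k : ℤ} (x : (𝟙_ T)⟦k⟧ ⟶ U.cobar.B 2 (𝟙_ T)) :
    (𝟙_ T)⟦k⟧ ⟶ (((𝟙_ T)⟦(1 : ℤ)⟧)⟦(1 : ℤ)⟧ : T) :=
  x ≫ U.bd 1 (𝟙_ T) ≫ (U.bd 0 (𝟙_ T))⟦(1 : ℤ)⟧'

lemma sh_sh_mulB {n t t' t'' : ℤ} (h : n + ((0 : ℕ) : ℤ) = t) (ht : t + k = t')
    (h' : n + a + ((0 : ℕ) : ℤ) = t'') (h1 : t'' + 1 = n + a + ((0 + 1 : ℕ) : ℤ))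
    (h2 : n + a + ((0 + 1 : ℕ) : ℤ) + 1 = t')
    (y : (((U.tow (𝟙_ T)).map (tensorRight V)).couple (𝟙_ T)).D 0 n) :
    sh (n + a + ((0 + 1 : ℕ) : ℤ)) 1 t' h2 (sh t'' 1 _ h1
      (e0 U h' (mulB (M₂ U (𝟙_ T) (tensorRight V) hk x hξ) 0 n y))) =
      act (tensorRight V) (bet U x) ht (e0 U h y) ≫
        ((tensorRight V).commShiftIso (1 : ℤ)).hom.app ((𝟙_ T)⟦(1 : ℤ)⟧) ≫
        (((tensorRight V).commShiftIso (1 : ℤ)).hom.app (𝟙_ T))⟦(1 : ℤ)⟧' := by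
  let X := (U.tow (𝟙_ T)).map (tensorRight V)
  subst h; subst h'
  have e2 : n + a + ((0 + 2 : ℕ) : ℤ) = t' := by rw [← ht, hk]; push_cast; ring
  have e1 : n + a + ((0 + 1 : ℕ) : ℤ) = n + a + ((0 + 1 : ℕ) : ℤ) := rfl
  rw [mulB_apply]
  have h3 := X.eD_i (𝟙_ T) (s := 0) (n := n + a) rfl e1 h1
    ((X.couple (𝟙_ T)).i 1 (n + a) ((M₂ U (𝟙_ T) (tensorRight V) hk x hξ).μ 0 n y))
  have h4 := X.eD_i (𝟙_ T) (s := 1) (n := n + a) e1 e2 h2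
    ((M₂ U (𝟙_ T) (tensorRight V) hk x hξ).μ 0 n y)
  refine (congrArg (sh (P := 𝟙_ T) _ 1 t' h2) h3).trans ?_
  rw [sh_comp]
  refine (congrArg (· ≫ (X.c 0)⟦(1 : ℤ)⟧') h4).trans ?_
  have h5 : X.eD (𝟙_ T) e2 ((M₂ U (𝟙_ T) (tensorRight V) hk x hξ).μ 0 n y) =
      act (tensorRight V) x ht (e0 U rfl y) := by
    have key : ∀ (t t' : ℤ) (e : t = t') (e' : n + ((0 : ℕ) : ℤ) + k = t)
        (e'' : n + ((0 : ℕ) : ℤ) + k = t') (y : (𝟙_ T)⟦n + ((0 : ℕ) : ℤ)⟧ ⟶ 𝟙_ T ⊗ V),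
        cst (𝟙_ T) ((tensorRight V).obj (U.cobar.B 2 (𝟙_ T))) e
          (sh (P := 𝟙_ T) (n + ((0 : ℕ) : ℤ)) k t e' y ≫
          ((tensorRight V).commShiftIso k).inv.app (𝟙_ T) ≫ (tensorRight V).map (U.ξ k x 0)) =
        act (tensorRight V) x e'' y := by
      rintro t _ rfl e' _ y
      rw [cst_rfl, act]
      have h5 : U.ξ k x 0 = x := Category.id_comp _
      rw [h5]
    exact key _ _ e2 (by rw [hk]; push_cast; ring) ht y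
  have h6 : act (tensorRight V) (bet U x) ht (e0 U rfl y) =
      act (tensorRight V) x ht (e0 U rfl y) ≫ (tensorRight V).map (U.bd 1 (𝟙_ T)) ≫
        (tensorRight V).map ((U.bd 0 (𝟙_ T))⟦(1 : ℤ)⟧') := by
    rw [bet, act_comp, ← Functor.map_comp]
  have h7 := ((tensorRight V).commShiftIso (1 : ℤ)).hom.naturality (U.bd 0 (𝟙_ T))
  change (tensorRight V).map ((U.bd 0 (𝟙_ T))⟦(1 : ℤ)⟧') ≫
    ((tensorRight V).commShiftIso (1 : ℤ)).hom.app ((𝟙_ T)⟦(1 : ℤ)⟧) =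
    ((tensorRight V).commShiftIso (1 : ℤ)).hom.app (U.cobar.B 1 (𝟙_ T)) ≫
      ((tensorRight V).map (U.bd 0 (𝟙_ T)))⟦(1 : ℤ)⟧' at h7
  rw [h5, h6]
  change (act (tensorRight V) x ht (e0 U rfl y) ≫ (tensorRight V).map (U.bd 1 (𝟙_ T)) ≫
      ((tensorRight V).commShiftIso (1 : ℤ)).hom.app (U.cobar.B 1 (𝟙_ T))) ≫
    ((tensorRight V).map (U.bd 0 (𝟙_ T)) ≫
      ((tensorRight V).commShiftIso (1 : ℤ)).hom.app (𝟙_ T))⟦(1 : ℤ)⟧' = _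
  rw [Functor.map_comp]
  simp only [Category.assoc]
  rw [← reassoc_of% h7]

/-- The multiplication by `β` in filtration `0` as a tensor product. -/
theorem exists_bet_tensor {n t t'' : ℤ} (h : n + ((0 : ℕ) : ℤ) = t)
    (h' : n + a + ((0 : ℕ) : ℤ) = t'') :
    ∃ e : (((𝟙_ T)⟦k⟧) ⊗ ((𝟙_ T)⟦t⟧)) ≅
        ((((𝟙_ T)⟦(1 : ℤ)⟧)⟦(1 : ℤ)⟧ : T) ⊗ ((𝟙_ T)⟦t''⟧)),
      ∀ y : (((U.tow (𝟙_ T)).map (tensorRight V)).couple (𝟙_ T)).D 0 n,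
        (bet U x ⊗ₘ zet U h y) = e.hom ≫ ((((𝟙_ T)⟦(1 : ℤ)⟧)⟦(1 : ℤ)⟧ : T) ◁
          zet U h' (mulB (M₂ U (𝟙_ T) (tensorRight V) hk x hξ) 0 n y)) := by
  obtain ⟨t', ht⟩ : ∃ t', t + k = t' := ⟨_, rfl⟩
  have h1 : t'' + 1 = n + a + ((0 + 1 : ℕ) : ℤ) := by rw [← h']; push_cast; ring
  have h2 : n + a + ((0 + 1 : ℕ) : ℤ) + 1 = t' := by rw [← ht, ← h, hk]; push_cast; ring
  refine ⟨(actIso k t t' ht).symm ≪≫ (shiftFunctorAdd' T _ 1 t' h2).app (𝟙_ T) ≪≫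
    (shiftFunctor T (1 : ℤ)).mapIso ((shiftFunctorAdd' T t'' 1 _ h1).app (𝟙_ T)) ≪≫
    (sph2 ((𝟙_ T)⟦t''⟧)).symm, fun y => ?_⟩
  have h3 := sh_sh_mulB U hk x hξ h ht h' h1 h2 y
  rw [act_eq] at h3
  have h4 := sph2_naturality (zet U h' (mulB (M₂ U (𝟙_ T) (tensorRight V) hk x hξ) 0 n y))
  rw [← cancel_mono (sph2 V).hom]
  simp only [Iso.trans_hom, Iso.symm_hom, Category.assoc, Functor.mapIso_hom, Iso.app_hom]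
  rw [h4, Iso.inv_hom_id_assoc, sph2_hom, ← cancel_epi (actIso k t t' ht).hom,
    Iso.hom_inv_id_assoc]
  have h5 := congrArg (· ≫ ((λ_ V).hom⟦(1 : ℤ)⟧')⟦(1 : ℤ)⟧') h3
  simp only [Category.assoc] at h5
  refine Eq.trans ?_ (h5.symm.trans ?_)
  · rfl
  · change ((shiftFunctorAdd' T _ 1 t' h2).hom.app (𝟙_ T) ≫
      ((shiftFunctorAdd' T t'' 1 _ h1).hom.app (𝟙_ T) ≫ _⟦(1 : ℤ)⟧')⟦(1 : ℤ)⟧') ≫ _ = _
    rw [zet, Functor.map_comp, Functor.map_comp, Functor.map_comp]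
    simp only [Category.assoc]

lemma heq_powB {C : Couple.{u, v}} {a : ℤ} (M : C.Mul2 a) {s : ℕ} {n : ℤ} (K : ℕ)
    (y : C.D s n) : HEq (powB M K (mulB M s n y)) (powB M (K + 1) y) := by
  induction K with
  | zero => rfl
  | succ K ih =>
    rw [powB_succ, powB_succ M (K + 1)]
    have key : ∀ {n₁ n₂ : ℤ} (_ : n₁ = n₂) (y₁ : C.D s n₁) (y₂ : C.D s n₂), HEq y₁ y₂ →
        HEq (mulB M s n₁ y₁) (mulB M s n₂ y₂) := by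
      rintro n₁ _ rfl y₁ y₂ h
      rw [eq_of_heq h]
    refine key ?_ _ _ ih
    rw [Couple.Mul2.deg_eq, Couple.Mul2.deg_eq]
    push_cast
    ring

lemma powB_mulB_eq_zero_iff {C : Couple.{u, v}} {a : ℤ} (M : C.Mul2 a) {s : ℕ} {n : ℤ} (K : ℕ)
    (y : C.D s n) : powB M K (mulB M s n y) = 0 ↔ powB M (K + 1) y = 0 := by
  have key : ∀ {n₁ n₂ : ℤ} (_ : n₁ = n₂) (y₁ : C.D s n₁) (y₂ : C.D s n₂), HEq y₁ y₂ →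
      (y₁ = 0 ↔ y₂ = 0) := by
    rintro n₁ _ rfl y₁ y₂ h
    rw [eq_of_heq h]
  refine key ?_ _ _ (heq_powB M K y)
  rw [Couple.Mul2.deg_eq, Couple.Mul2.deg_eq]
  push_cast
  ring

/-- **The powers of `β` in filtration `0`.** -/
theorem powB_eq_zero_iff {n t : ℤ} (h : n + ((0 : ℕ) : ℤ) = t) (K : ℕ)
    (y : (((U.tow (𝟙_ T)).map (tensorRight V)).couple (𝟙_ T)).D 0 n) :
    powB (M₂ U (𝟙_ T) (tensorRight V) hk x hξ) K y = 0 ↔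
      (tpow (bet U x) K ⊗ₘ zet U h y) = 0 := by
  induction K generalizing n t with
  | zero =>
    refine (zet_eq_zero_iff U h y).symm.trans ?_
    rw [tpow_zero, id_tensorHom]
    constructor
    · intro h0
      rw [h0, MonoidalPreadditive.whiskerLeft_zero]
    · intro h0
      have h1 := leftUnitor_naturality (zet U h y)
      have h3 : (𝟙_ T) ◁ zet U h y = 0 := h0
      rw [h3, zero_comp] at h1
      have h2 : (λ_ _).inv ≫ (λ_ _).hom ≫ zet U h y = 0 := by rw [← h1, comp_zero]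
      rwa [Iso.inv_hom_id_assoc] at h2
  | succ K ih =>
    obtain ⟨e, he⟩ := exists_bet_tensor U hk x hξ h rfl
    rw [← powB_mulB_eq_zero_iff, ih rfl, tpow_succ]
    have h1 : ((tpow (bet U x) K ⊗ₘ bet U x) ⊗ₘ zet U h y) = 0 ↔
        (tpow (bet U x) K ⊗ₘ (bet U x ⊗ₘ zet U h y)) = 0 := by
      have h2 := associator_naturality (tpow (bet U x) K) (bet U x) (zet U h y)
      constructor
      · intro h3
        rw [h3, zero_comp] at h2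
        have h4 := congrArg ((α_ _ _ _).inv ≫ ·) h2
        simpa using h4.symm
      · intro h3
        rw [h3, comp_zero] at h2
        have h4 := congrArg (· ≫ (α_ _ _ _).inv) h2
        simpa using h4
    rw [h1, he y, ← tensor_whiskerLeft_eq_zero_iff]
    have h5 : (tpow (bet U x) K ⊗ₘ (e.hom ≫ ((((𝟙_ T)⟦(1 : ℤ)⟧)⟦(1 : ℤ)⟧ : T) ◁
        zet U rfl (mulB (M₂ U (𝟙_ T) (tensorRight V) hk x hξ) 0 n y)))) =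
        (_ ◁ e.hom) ≫ (tpow (bet U x) K ⊗ₘ ((((𝟙_ T)⟦(1 : ℤ)⟧)⟦(1 : ℤ)⟧ : T) ◁
        zet U rfl (mulB (M₂ U (𝟙_ T) (tensorRight V) hk x hξ) 0 n y))) := by
      rw [← id_tensorHom (Am ((𝟙_ T)⟦k⟧) K) e.hom, tensorHom_comp_tensorHom, Category.id_comp]
    rw [h5]
    constructor
    · intro h6
      rw [h6, comp_zero]
    · intro h6
      have h7 := congrArg ((_ ◁ e.inv) ≫ ·) h6
      simpa using h7

end Tower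

section Final

open Vale.Agent.P251.F Vale.Agent.P251.I Vale.Agent.P251.M Vale.Agent.P257.H314
open Vale.Agent.P251.B (sphE)

variable {T : Type u} [Category.{v} T] [Preadditive T] [HasZeroObject T]
    [HasShift T ℤ] [∀ n : ℤ, (shiftFunctor T n).Additive] [Pretriangulated T]
    [MonoidalCategory T] [SymmetricCategory T] [TensorTriangulated T] [HasCoproducts.{0} T]
    [MonoidalClosed T] [IsTriangulated T] [HasProducts.{0} T] [StableCat T]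
    {D : MUData T} (U : UnitCof D.R) {p : ℕ} [Fact p.Prime] {V : T} {i : 𝟙_ T ⟶ V}
    {C₀ : T} {iC₀ : 𝟙_ T ⟶ C₀}

/-- **Survival of `v_4`**, with the conclusion of the Toda lemma in terms of tensor products. -/
theorem exists_det_v4' (H : IsST D p iC₀ 4 i) (hp : 5 ≤ p) (hV : V4Van p)
    {t : Cob Laz 1} (hb : Cob.IsWt ((p : ℤ) * ((p : ℤ) - 1)) (bcls p t))
    (x : (𝟙_ T)⟦2 * ((p : ℤ) * ((p : ℤ) - 1))⟧ ⟶ U.cobar.B 2 (𝟙_ T))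
    (hx : ((sphE T ((p : ℤ) * ((p : ℤ) - 1))).inv ≫
        D.phi U 2 ((p : ℤ) * ((p : ℤ) - 1)) ⟨bcls p t, hb⟩) ≫ U.cobar.q 2 (𝟙_ T) =
      x ≫ unitMap D.R _)
    (hO : AlgOnto p 4 (bcls p t) ((p : ℤ) * ((p : ℤ) - 1)) 5
      (((p : ℤ) - 1) * (2 * p ^ 2 + 4 * p + 1)) (p ^ 2 - p - 3))
    (α : (𝟙_ T)⟦2 * ((p : ℤ) - 1)⟧ ⟶ U.cobar.B 1 (𝟙_ T))
    (hTL : ∀ (n : ℤ) (ζ : (𝟙_ T)⟦n⟧ ⟶ V), ((α ≫ U.bd 0 (𝟙_ T)) ⊗ₘ ζ) = 0 →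
      (tpow (x ≫ U.bd 1 (𝟙_ T) ≫ (U.bd 0 (𝟙_ T))⟦(1 : ℤ)⟧') ((p - 1) ^ 2) ⊗ₘ ζ) = 0)
    (hL : ∀ y : (CV U V).D (2 * (p - 1) + 1) (2 * ((p : ℤ) ^ 4 - 1) - 1),
      (CV U V).proj _ (Nat.le_add_left 1 _) y = (CV U V).k 0 _ _ (by ring) (v4E U p i) →
      Null (CV U V) 1 ((CV U V).j _ _ y)) :
    ∃ x : (stdEven T).S ((p ^ 4 : ℤ) - 1) ⟶ V, Det D i x (vw p 4 0) := by
  have hk : 2 * ((p : ℤ) * ((p : ℤ) - 1)) = 2 * ((p * (p - 1) : ℕ) : ℤ) := by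
    rw [Nat.cast_mul, Nat.cast_sub (by omega), Nat.cast_one]
  refine exists_det_v4 U H hp hV hb x (fun s => U.ξ_comm_of_even (p * (p - 1)) hk x s) hx hO α
    (fun n y hy => ?_) hL
  rw [i_M₁_eq_zero_iff' U _ _ _ α rfl] at hy
  exact (powB_eq_zero_iff U (by ring) x _ rfl _ y).2 (hTL _ _ hy)

end Final

end Vale.Agent.P257.H712
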